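import Vale.Agent.P270.Defs

/-! Combinatorics of the Cox data of a smooth projective toric variety: torus fixed points and the
simplex method. -/

namespace Vale.Agent.P270

variable {n s : ℕ}

/-- A torus fixed point of `F`: a basis of `ℤ^s` among the degrees, with its dual basis. -/
structure Vertex (V : ToricVariety n s) where
  I : Finset (Fin n)
  stable : IsStable V.deg V.amp (fun i => if i ∈ I then 1 else 0)
  γ : Fin n → Fin s → ℤ
  γ_zero : ∀ i, i ∉ I → γ i = 0
  dual : ∀ k ∈ I, ∀ i, ∑ j, γ i j * V.deg k j = if i = k then 1 else 0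
  total : ∀ j j', ∑ i, γ i j * V.deg i j' = if j = j' then 1 else 0

/-- Stability of a point depends only on its vanishing coordinates. -/
theorem isStable_iff {deg : Fin n → Fin s → ℤ} {amp : Fin s → ℤ} {t : Fin n → ℂ} :
    IsStable deg amp t ↔ ∃ (k : ℕ) (χ : Fin n → ℕ), 0 < k ∧
      (∀ j, ∑ i, (χ i : ℤ) * deg i j = k * amp j) ∧ ∀ i, t i = 0 → χ i = 0 := by
  unfold IsStable
  refine exists_congr fun k => exists_congr fun χ => and_congr_right fun _ =>
    and_congr_right fun _ => ?_
  rw [Finset.prod_ne_zero_iff]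
  constructor
  · intro h i hi
    by_contra hχ
    exact h i (Finset.mem_univ i) (by rw [hi, zero_pow hχ])
  · intro h i _
    by_cases hi : t i = 0
    · rw [h i hi, pow_zero]
      exact one_ne_zero
    · exact pow_ne_zero _ hi

theorem IsStable.mono {deg : Fin n → Fin s → ℤ} {amp : Fin s → ℤ} {t t' : Fin n → ℂ}
    (h : IsStable deg amp t) (ht : ∀ i, t' i = 0 → t i = 0) : IsStable deg amp t' := by
  rw [isStable_iff] at h ⊢
  obtain ⟨k, χ, hk, h1, h2⟩ := h
  exact ⟨k, χ, hk, h1, fun i hi => h2 i (ht i hi)⟩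

/-- Every stable point specialises to a fixed point. -/
theorem exists_vertex (V : ToricVariety n s) {t : Fin n → ℂ} (ht : IsStable V.deg V.amp t) :
    ∃ v : Vertex V, ∀ i ∈ v.I, t i ≠ 0 := by
  classical
  -- a minimal stable support
  let P : Finset (Fin n) → Prop := fun I =>
    IsStable V.deg V.amp (fun i => if i ∈ I then 1 else 0) ∧ ∀ i ∈ I, t i ≠ 0
  have hP0 : P (Finset.univ.filter fun i => t i ≠ 0) := by
    refine ⟨ht.mono fun i hi => ?_, fun i hi => (Finset.mem_filter.1 hi).2⟩
    by_contra hne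
    simp [hne] at hi
  obtain ⟨I, hI, hmin⟩ : ∃ I, P I ∧ ∀ J, P J → I.card ≤ J.card := by
    have hne : ∃ m, ∃ I, P I ∧ I.card = m := ⟨_, _, hP0, rfl⟩
    obtain ⟨I, hI, hc⟩ := Nat.find_spec hne
    refine ⟨I, hI, fun J hJ => ?_⟩
    rw [hc]
    exact Nat.find_min' hne ⟨J, hJ, rfl⟩
  obtain ⟨k, χ, hk, hχ, hχ0⟩ := isStable_iff.1 hI.1
  have hχI : ∀ i, i ∉ I → χ i = 0 := fun i hi => hχ0 i (by simp [hi])
  -- a stable subset of `I` is `I`
  have hsub : ∀ (k' : ℕ) (χ' : Fin n → ℕ), 0 < k' →
      (∀ j, ∑ i, (χ' i : ℤ) * V.deg i j = k' * V.amp j) → (∀ i, i ∉ I → χ' i = 0) →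
      ∀ i ∈ I, χ' i ≠ 0 := by
    intro k' χ' hk' h1 h2 i hi hzero
    have hJ : P (I.erase i) := by
      refine ⟨isStable_iff.2 ⟨k', χ', hk', h1, fun i' hi' => ?_⟩,
        fun i' hi' => hI.2 i' (Finset.mem_of_mem_erase hi')⟩
      by_cases h : i' = i
      · rw [h]; exact hzero
      · refine h2 i' fun hmem => ?_
        simp [Finset.mem_erase, h, hmem] at hi'
    have := hmin _ hJ
    rw [Finset.card_erase_of_mem hi] at this
    have hpos : 0 < I.card := Finset.card_pos.2 ⟨i, hi⟩
    omega
  have hχpos := hsub k χ hk hχ hχI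
  -- independence of the degrees in `I`
  obtain ⟨w, hw⟩ := V.projective
  have hindep : ∀ c : Fin n → ℤ, (∀ i, i ∉ I → c i = 0) →
      (∀ j, ∑ i, c i * V.deg i j = 0) → c = 0 := by
    intro c hc0 hc
    by_contra hne
    -- some positive entry
    have hpos : ∃ i, 0 < c i := by
      by_contra hnp
      push Not at hnp
      have hsum : ∑ i, c i * ∑ j, w j * V.deg i j = 0 := by
        have : ∑ i, c i * ∑ j, w j * V.deg i j = ∑ j, w j * ∑ i, c i * V.deg i j := by
          simp only [Finset.mul_sum]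
          rw [Finset.sum_comm]
          refine Finset.sum_congr rfl fun j _ => Finset.sum_congr rfl fun i _ => by ring
        rw [this]
        simp [hc]
      have hle : ∀ i ∈ Finset.univ, c i * ∑ j, w j * V.deg i j ≤ 0 := fun i _ =>
        mul_nonpos_of_nonpos_of_nonneg (hnp i) (hw i).le
      have h0 := (Finset.sum_eq_zero_iff_of_nonpos hle).1 hsum
      apply hne
      ext i
      have := h0 i (Finset.mem_univ i)
      rcases mul_eq_zero.1 this with h | h
      · exact h
      · exact absurd h (hw i).ne'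
    obtain ⟨i₁, hi₁⟩ := hpos
    have hi₁I : i₁ ∈ I := by
      by_contra h
      rw [hc0 i₁ h] at hi₁
      exact lt_irrefl _ hi₁
    -- maximise c i / χ i
    obtain ⟨i₀, hi₀, hmax⟩ := Finset.exists_max_image I (fun i => (c i : ℚ) / χ i) ⟨i₁, hi₁I⟩
    have hc₀ : 0 < c i₀ := by
      have h1 := hmax i₁ hi₁I
      have h2 : (0 : ℚ) < (c i₁ : ℚ) / χ i₁ := by
        apply div_pos (by exact_mod_cast hi₁)
        exact_mod_cast Nat.pos_of_ne_zero (hχpos i₁ hi₁I)
      have h3 : (0 : ℚ) < (c i₀ : ℚ) / χ i₀ := lt_of_lt_of_le h2 h1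
      by_contra hle
      push Not at hle
      have : (c i₀ : ℚ) / χ i₀ ≤ 0 :=
        div_nonpos_of_nonpos_of_nonneg (by exact_mod_cast hle) (by positivity)
      linarith
    have hge : ∀ i, 0 ≤ c i₀ * χ i - χ i₀ * c i := by
      intro i
      by_cases hi : i ∈ I
      · have h1 := hmax i hi
        have hp : (0 : ℚ) < χ i := by exact_mod_cast Nat.pos_of_ne_zero (hχpos i hi)
        have hp₀ : (0 : ℚ) < χ i₀ := by exact_mod_cast Nat.pos_of_ne_zero (hχpos i₀ hi₀)
        rw [div_le_div_iff₀ hp hp₀] at h1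
        have h2 : (c i : ℤ) * χ i₀ ≤ c i₀ * χ i := by exact_mod_cast h1
        linarith
      · rw [hχI i hi, hc0 i hi]
        simp
    refine hsub ((c i₀).toNat * k) (fun i => (c i₀ * χ i - χ i₀ * c i).toNat) ?_ ?_ ?_ i₀ hi₀ ?_
    · exact Nat.mul_pos (by omega) hk
    · intro j
      have h1 : ∀ i, (((c i₀ * χ i - χ i₀ * c i).toNat : ℕ) : ℤ) = c i₀ * χ i - χ i₀ * c i :=
        fun i => Int.toNat_of_nonneg (hge i)
      simp only [h1]
      push_cast
      rw [Int.toNat_of_nonneg hc₀.le]
      have : ∑ i, (c i₀ * (χ i : ℤ) - χ i₀ * c i) * V.deg i j =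
          c i₀ * ∑ i, (χ i : ℤ) * V.deg i j - χ i₀ * ∑ i, c i * V.deg i j := by
        rw [Finset.mul_sum, Finset.mul_sum, ← Finset.sum_sub_distrib]
        refine Finset.sum_congr rfl fun i _ => by ring
      rw [this, hχ j, hc j]
      ring
    · intro i hi
      rw [hχI i hi, hc0 i hi]
      simp
    · simp [mul_comm]
  -- the dual basis
  have hfree := V.free _ hI.1
  choose C hC0 hC using fun j : Fin s => hfree (Pi.single j 1)
  have hC0' : ∀ j i, i ∉ I → C j i = 0 := fun j i hi => hC0 j i (by simp [hi])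
  refine ⟨⟨I, hI.1, fun i j => C j i, fun i hi => ?_, fun k hk i => ?_, fun j j' => ?_⟩, hI.2⟩
  · ext j
    exact hC0' j i hi
  · have hz := hindep (fun i => (∑ j, C j i * V.deg k j) - if i = k then 1 else 0) ?_ ?_
    · have := congrFun hz i
      simp only [Pi.zero_apply] at this
      linarith
    · intro i hi
      have hik : i ≠ k := fun h => hi (h ▸ hk)
      simp [hik, hC0' _ i hi]
    · intro j'
      simp only [sub_mul, Finset.sum_sub_distrib, ite_mul, one_mul, zero_mul,
        Finset.sum_ite_eq', Finset.mem_univ, if_true]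
      have : ∑ i, (∑ j, C j i * V.deg k j) * V.deg i j' =
          ∑ j, V.deg k j * ∑ i, C j i * V.deg i j' := by
        simp only [Finset.sum_mul, Finset.mul_sum]
        rw [Finset.sum_comm]
        refine Finset.sum_congr rfl fun j _ => Finset.sum_congr rfl fun i _ => by ring
      rw [this]
      simp only [hC, Pi.single_apply]
      simp
  · have := hC j j'
    rw [this, Pi.single_apply]
    simp [eq_comm]

namespace Vertex

variable {V : ToricVariety n s} (v : Vertex V)

/-- The coordinates of `a` in the basis `deg i`, `i ∈ v.I`. -/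
def coord {R : Type*} [Ring R] (a : Fin s → R) (i : Fin n) : R := ∑ j, (v.γ i j : R) * a j

theorem coord_zero {R : Type*} [Ring R] (a : Fin s → R) (i : Fin n) (hi : i ∉ v.I) :
    v.coord a i = 0 := by
  unfold coord
  rw [v.γ_zero i hi]
  simp

theorem dual_cast {R : Type*} [Ring R] (k : Fin n) (hk : k ∈ v.I) (i : Fin n) :
    ∑ j, (v.γ i j : R) * (V.deg k j : R) = if i = k then 1 else 0 := by
  have := congrArg (fun x : ℤ => (x : R)) (v.dual k hk i)
  push_cast at this
  exact this

theorem total_cast {R : Type*} [Ring R] (j j' : Fin s) :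
    ∑ i, (v.γ i j : R) * (V.deg i j' : R) = if j = j' then 1 else 0 := by
  have := congrArg (fun x : ℤ => (x : R)) (v.total j j')
  push_cast at this
  exact this

/-- The point with coordinates `coord a` has degree `a`. -/
theorem deg_coord {R : Type*} [CommRing R] (a : Fin s → R) (j : Fin s) :
    ∑ i, v.coord a i * (V.deg i j : R) = a j := by
  unfold coord
  simp only [Finset.sum_mul]
  rw [Finset.sum_comm]
  have : ∀ j', ∑ i, (v.γ i j' : R) * a j' * (V.deg i j : R) = if j' = j then a j else 0 := by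
    intro j'
    have h := v.total_cast (R := R) j' j
    have h2 : ∑ i, (v.γ i j' : R) * a j' * (V.deg i j : R) =
        a j' * ∑ i, (v.γ i j' : R) * (V.deg i j : R) := by
      rw [Finset.mul_sum]
      refine Finset.sum_congr rfl fun i _ => by ring
    rw [h2, h]
    split_ifs with h3
    · rw [h3, mul_one]
    · rw [mul_zero]
  simp only [this]
  simp

/-- A vector supported in `v.I` is determined by its degree. -/
theorem eq_coord {R : Type*} [CommRing R] (c : Fin n → R) (hc : ∀ i, i ∉ v.I → c i = 0)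
    (a : Fin s → R) (ha : ∀ j, ∑ i, c i * (V.deg i j : R) = a j) : c = v.coord a := by
  ext i
  unfold coord
  simp only [← ha, Finset.mul_sum]
  rw [Finset.sum_comm]
  have : ∀ k, ∑ j, (v.γ i j : R) * (c k * (V.deg k j : R)) = if i = k then c k else 0 := by
    intro k
    have h2 : ∑ j, (v.γ i j : R) * (c k * (V.deg k j : R)) =
        c k * ∑ j, (v.γ i j : R) * (V.deg k j : R) := by
      rw [Finset.mul_sum]
      refine Finset.sum_congr rfl fun j _ => by ring
    rw [h2]
    by_cases hk : k ∈ v.I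
    · rw [v.dual_cast k hk]
      split_ifs <;> simp
    · rw [hc k hk]
      simp
  simp only [this]
  simp

theorem coord_amp_nonneg (i : Fin n) : 0 ≤ v.coord V.amp i := by
  obtain ⟨k, χ, hk, h1, h2⟩ := isStable_iff.1 v.stable
  have h3 : ∀ i, i ∉ v.I → χ i = 0 := fun i hi => h2 i (by simp [hi])
  have h4 := v.eq_coord (R := ℤ) (fun i => (χ i : ℤ)) (fun i hi => by simp [h3 i hi])
    (fun j => k * V.amp j) (fun j => by simpa using h1 j)
  have h5 := congrFun h4 i
  have h6 : v.coord (fun j => (k : ℤ) * V.amp j) i = k * v.coord V.amp i := by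
    unfold coord
    rw [Finset.mul_sum]
    refine Finset.sum_congr rfl fun j _ => by push_cast; ring
  rw [h6] at h5
  have h7 : (0 : ℤ) ≤ k * v.coord V.amp i := by rw [← h5]; positivity
  have h8 : (0 : ℤ) < k := by exact_mod_cast hk
  exact nonneg_of_mul_nonneg_right h7 h8

theorem coord_amp_pos (i : Fin n) (hi : i ∈ v.I) : 0 < v.coord V.amp i := by
  classical
  refine lt_of_le_of_ne (v.coord_amp_nonneg i) fun h0 => ?_
  obtain ⟨k, χ, hk, h1, h2⟩ := isStable_iff.1 v.stable
  have h3 : ∀ i, i ∉ v.I → χ i = 0 := fun i hi => h2 i (by simp [hi])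
  have h4 := v.eq_coord (R := ℤ) (fun i => (χ i : ℤ)) (fun i hi => by simp [h3 i hi])
    (fun j => k * V.amp j) (fun j => by simpa using h1 j)
  have h5 := congrFun h4 i
  have h6 : v.coord (fun j => (k : ℤ) * V.amp j) i = k * v.coord V.amp i := by
    unfold coord
    rw [Finset.mul_sum]
    refine Finset.sum_congr rfl fun j _ => by push_cast; ring
  rw [h6, ← h0, mul_zero] at h5
  have h7 : χ i = 0 := by exact_mod_cast h5
  have hst : IsStable V.deg V.amp (fun i' => if i' ∈ v.I.erase i then 1 else 0) := by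
    refine isStable_iff.2 ⟨k, χ, hk, h1, fun i' hi' => ?_⟩
    by_cases h : i' = i
    · rw [h]; exact h7
    · refine h3 i' fun hmem => ?_
      simp [Finset.mem_erase, h, hmem] at hi'
  obtain ⟨c, hc0, hc⟩ := V.free _ hst (V.deg i)
  have hc0' : ∀ i', i' ∉ v.I.erase i → c i' = 0 := fun i' hi' => hc0 i' (by simp only [hi', if_false])
  have hc1 := v.eq_coord (R := ℤ) c
    (fun i' hi' => hc0' i' fun h => hi' (Finset.mem_of_mem_erase h)) (V.deg i)
    (fun j => by simpa using hc j)
  have hc2 := congrFun hc1 i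
  rw [hc0' i (Finset.notMem_erase i _)] at hc2
  have hc3 := v.dual i hi i
  unfold coord at hc2
  simp only [Int.cast_id] at hc2
  rw [← hc2] at hc3
  simp at hc3

end Vertex

/-- The simplex method: every real weight is, up to a character, nonnegative and zero on the
coordinates of a fixed point. -/
theorem exists_normalise (V : ToricVariety n s) (w : Fin n → ℝ) :
    ∃ (c : Fin s → ℝ) (v : Vertex V), (∀ i, ∑ j, c j * V.deg i j ≤ w i) ∧
      ∀ i ∈ v.I, w i = ∑ j, c j * V.deg i j := by
  classical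
  -- the value of `w` on the vertex
  let f : Vertex V → ℝ := fun v => ∑ i, w i * v.coord (fun j => (V.amp j : ℝ)) i
  -- there are finitely many values
  have hinj : ∀ v v' : Vertex V, v.I = v'.I → f v = f v' := by
    intro v v' h
    have : v.coord (fun j => (V.amp j : ℝ)) = v'.coord (fun j => (V.amp j : ℝ)) := by
      refine v'.eq_coord _ (fun i hi => v.coord_zero _ i (h ▸ hi)) _ fun j => v.deg_coord _ j
    simp only [f, this]
  obtain ⟨t, ht⟩ := V.nonempty
  obtain ⟨v₀, -⟩ := exists_vertex V ht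
  obtain ⟨v, hv⟩ : ∃ v : Vertex V, ∀ v' : Vertex V, f v ≤ f v' := by
    let S : Set ℝ := Set.range f
    have hfin : S.Finite := by
      have : S ⊆ Set.range (fun I : {I : Finset (Fin n) // ∃ v : Vertex V, v.I = I} =>
          f I.2.choose) := by
        rintro _ ⟨v, rfl⟩
        exact ⟨⟨v.I, v, rfl⟩, hinj _ _ (Exists.choose_spec (⟨v, rfl⟩ : ∃ v' : Vertex V, v'.I = v.I))⟩
      exact (Set.finite_range _).subset this
    have hne : S.Nonempty := ⟨f v₀, v₀, rfl⟩
    obtain ⟨x, ⟨v, rfl⟩, hx⟩ := Set.exists_min_image S id hfin hne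
    exact ⟨v, fun v' => hx _ ⟨v', rfl⟩⟩
  refine ⟨fun j => ∑ i, w i * v.γ i j, v, fun e => ?_, fun k hk => ?_⟩
  swap
  · have : ∑ j, (∑ i, w i * (v.γ i j : ℝ)) * V.deg k j =
        ∑ i, w i * ∑ j, (v.γ i j : ℝ) * V.deg k j := by
      simp only [Finset.sum_mul, Finset.mul_sum]
      rw [Finset.sum_comm]
      refine Finset.sum_congr rfl fun i _ => Finset.sum_congr rfl fun j _ => by ring
    rw [this]
    simp only [v.dual_cast k hk]
    simp
  -- the entering coordinate `e`
  by_contra hlt
  push Not at hlt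
  have hcsum : ∀ i, ∑ j, (∑ i, w i * (v.γ i j : ℝ)) * V.deg i j =
      ∑ i', w i' * v.coord (fun j => (V.deg i j : ℝ)) i' := by
    intro i
    unfold Vertex.coord
    simp only [Finset.sum_mul, Finset.mul_sum]
    rw [Finset.sum_comm]
    refine Finset.sum_congr rfl fun i _ => Finset.sum_congr rfl fun j _ => by ring
  rw [hcsum] at hlt
  set r : Fin n → ℤ := v.coord (V.deg e) with hr
  have hrcast : ∀ i, v.coord (fun j => (V.deg e j : ℝ)) i = (r i : ℝ) := by
    intro i
    rw [hr]
    unfold Vertex.coord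
    push_cast
    rfl
  set a : Fin n → ℤ := v.coord V.amp with ha
  have hacast : ∀ v' : Vertex V, ∀ i, v'.coord (fun j => (V.amp j : ℝ)) i =
      ((v'.coord V.amp i : ℤ) : ℝ) := by
    intro v' i
    unfold Vertex.coord
    push_cast
    rfl
  have hr0 : ∀ i, i ∉ v.I → r i = 0 := fun i hi => v.coord_zero _ i hi
  have ha0 : ∀ i, i ∉ v.I → a i = 0 := fun i hi => v.coord_zero _ i hi
  have hapos : ∀ i ∈ v.I, 0 < a i := fun i hi => v.coord_amp_pos i hi
  have hrdeg : ∀ j, ∑ i, r i * V.deg i j = V.deg e j := fun j => by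
    simpa using v.deg_coord (R := ℤ) (V.deg e) j
  have hadeg : ∀ j, ∑ i, a i * V.deg i j = V.amp j := fun j => by
    simpa using v.deg_coord (R := ℤ) V.amp j
  have heI : e ∉ v.I := by
    intro he
    have : ∀ i, v.coord (fun j => (V.deg e j : ℝ)) i = if i = e then 1 else 0 :=
      fun i => v.dual_cast e he i
    simp only [this] at hlt
    simp at hlt
  -- some positive `r i`
  obtain ⟨W, hW⟩ := V.projective
  obtain ⟨i₁, hi₁⟩ : ∃ i, 0 < r i := by
    by_contra hnp
    push Not at hnp
    have h1 : ∑ i, r i * ∑ j, W j * V.deg i j = ∑ j, W j * V.deg e j := by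
      have : ∑ i, r i * ∑ j, W j * V.deg i j = ∑ j, W j * ∑ i, r i * V.deg i j := by
        simp only [Finset.mul_sum]
        rw [Finset.sum_comm]
        refine Finset.sum_congr rfl fun j _ => Finset.sum_congr rfl fun i _ => by ring
      rw [this]
      simp only [hrdeg]
    have h2 : ∑ i, r i * ∑ j, W j * V.deg i j ≤ 0 := Finset.sum_nonpos fun i _ =>
      mul_nonpos_of_nonpos_of_nonneg (hnp i) (hW i).le
    have h3 := hW e
    linarith
  have hi₁I : i₁ ∈ v.I := by
    by_contra h
    rw [hr0 i₁ h] at hi₁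
    exact lt_irrefl _ hi₁
  obtain ⟨i₀, hi₀, hmin⟩ := Finset.exists_min_image (v.I.filter fun i => 0 < r i)
    (fun i => (a i : ℚ) / r i) ⟨i₁, Finset.mem_filter.2 ⟨hi₁I, hi₁⟩⟩
  obtain ⟨hi₀I, hr₀⟩ := Finset.mem_filter.1 hi₀
  have ha₀ := hapos i₀ hi₀I
  -- the new point
  have hge : ∀ i, 0 ≤ r i₀ * a i - a i₀ * r i := by
    intro i
    by_cases hi : i ∈ v.I
    · by_cases hri : 0 < r i
      · have h1 := hmin i (Finset.mem_filter.2 ⟨hi, hri⟩)
        have hp : (0 : ℚ) < r i := by exact_mod_cast hri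
        have hp₀ : (0 : ℚ) < r i₀ := by exact_mod_cast hr₀
        rw [div_le_div_iff₀ hp₀ hp] at h1
        have h2 : a i₀ * r i ≤ a i * r i₀ := by exact_mod_cast h1
        linarith
      · push Not at hri
        have h1 : 0 ≤ r i₀ * a i := mul_nonneg hr₀.le (hapos i hi).le
        have h2 : a i₀ * r i ≤ 0 := mul_nonpos_of_nonneg_of_nonpos ha₀.le hri
        linarith
    · rw [hr0 i hi, ha0 i hi]
      simp
  let χ : Fin n → ℤ := fun i => r i₀ * a i - a i₀ * r i + if i = e then a i₀ else 0
  have hχ0 : ∀ i, 0 ≤ χ i := by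
    intro i
    simp only [χ]
    have := hge i
    split_ifs <;> linarith
  have hχdeg : ∀ j, ∑ i, χ i * V.deg i j = r i₀ * V.amp j := by
    intro j
    have : ∑ i, χ i * V.deg i j = r i₀ * ∑ i, a i * V.deg i j - a i₀ * ∑ i, r i * V.deg i j +
        a i₀ * V.deg e j := by
      rw [Finset.mul_sum, Finset.mul_sum, ← Finset.sum_sub_distrib]
      have h1 : a i₀ * V.deg e j = ∑ i, if i = e then a i₀ * V.deg i j else 0 := by simp
      rw [h1, ← Finset.sum_add_distrib]
      refine Finset.sum_congr rfl fun i _ => ?_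
      simp only [χ]
      split_ifs <;> ring
    rw [this, hadeg, hrdeg]
    ring
  have hχsupp : ∀ i, i ≠ e → (i ∉ v.I ∨ i = i₀) → χ i = 0 := by
    intro i hie hi
    simp only [χ, hie, if_false, add_zero]
    rcases hi with hi | hi
    · rw [hr0 i hi, ha0 i hi]; simp
    · rw [hi]; ring
  have hst : IsStable V.deg V.amp (fun i => if χ i = 0 then (0 : ℂ) else 1) := by
    refine isStable_iff.2 ⟨(r i₀).toNat, fun i => (χ i).toNat, by omega, fun j => ?_,
      fun i hi => ?_⟩
    · simp only [Int.toNat_of_nonneg (hχ0 _), Int.toNat_of_nonneg hr₀.le]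
      exact hχdeg j
    · by_cases h : χ i = 0
      · simp [h]
      · simp [h] at hi
  obtain ⟨v', hv'⟩ := exists_vertex V hst
  have hv'I : ∀ i ∈ v'.I, χ i ≠ 0 := fun i hi h => hv' i hi (by simp [h])
  -- `v'` is the new vertex
  have hei₀ : e ≠ i₀ := fun h => heI (h ▸ hi₀I)
  have hcoord : ∀ i, (χ i : ℝ) = r i₀ * v'.coord (fun j => (V.amp j : ℝ)) i := by
    -- the difference is supported in `I ∪ {e} \ {i₀}` and has degree zero
    set d : Fin n → ℝ := fun i => (χ i : ℝ) - r i₀ * v'.coord (fun j => (V.amp j : ℝ)) i with hd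
    have hdsupp : ∀ i, i ≠ e → (i ∉ v.I ∨ i = i₀) → d i = 0 := by
      intro i hie hi
      have h1 := hχsupp i hie hi
      simp only [hd, h1]
      rw [v'.coord_zero _ i fun hmem => hv'I i hmem h1]
      simp
    have hddeg : ∀ j, ∑ i, d i * V.deg i j = 0 := by
      intro j
      simp only [hd, sub_mul, Finset.sum_sub_distrib]
      have h1 : ∑ i, (r i₀ : ℝ) * v'.coord (fun j => (V.amp j : ℝ)) i * V.deg i j =
          r i₀ * ∑ i, v'.coord (fun j => (V.amp j : ℝ)) i * V.deg i j := by
        rw [Finset.mul_sum]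
        refine Finset.sum_congr rfl fun i _ => by ring
      rw [h1, v'.deg_coord]
      have h2 := congrArg (fun x : ℤ => (x : ℝ)) (hχdeg j)
      push_cast at h2
      rw [h2]
      ring
    have hde : d e = 0 := by
      -- apply `γ i₀`
      have h1 : ∑ j, (v.γ i₀ j : ℝ) * ∑ i, d i * V.deg i j = 0 := by simp [hddeg]
      have h2 : ∑ j, (v.γ i₀ j : ℝ) * ∑ i, d i * V.deg i j =
          ∑ i, d i * ∑ j, (v.γ i₀ j : ℝ) * V.deg i j := by
        simp only [Finset.mul_sum]
        rw [Finset.sum_comm]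
        refine Finset.sum_congr rfl fun i _ => Finset.sum_congr rfl fun j _ => by ring
      rw [h2] at h1
      rw [Finset.sum_eq_single e] at h1
      · rcases mul_eq_zero.1 h1 with h | h
        · exact h
        · exfalso
          have h3 : (r i₀ : ℝ) = 0 := by
            rw [← hrcast]
            exact h
          have : r i₀ = 0 := by exact_mod_cast h3
          omega
      · intro i _ hie
        by_cases hi : i ∉ v.I ∨ i = i₀
        · rw [hdsupp i hie hi, zero_mul]
        · push Not at hi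
          rw [v.dual_cast i hi.1 i₀, if_neg (Ne.symm hi.2), mul_zero]
      · intro h
        exact absurd (Finset.mem_univ _) h
    have hd0 := v.eq_coord d (fun i hi => by
      by_cases hie : i = e
      · rw [hie, hde]
      · exact hdsupp i hie (Or.inl hi)) (fun _ => 0) hddeg
    intro i
    have := congrFun hd0 i
    simp only [hd] at this
    unfold Vertex.coord at this ⊢
    simp at this
    linarith
  have hfv' := hv v'
  have h1 : (r i₀ : ℝ) * f v' = ∑ i, w i * χ i := by
    simp only [f, Finset.mul_sum, hcoord]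
    refine Finset.sum_congr rfl fun i _ => by ring
  have h2 : ∑ i, w i * (χ i : ℝ) = r i₀ * f v + a i₀ * (w e - ∑ i, w i * (r i : ℝ)) := by
    have h3 : f v = ∑ i, w i * (a i : ℝ) := by
      simp only [f, hacast, ha]
    rw [h3]
    have : w e = ∑ i, if i = e then w i else 0 := by simp
    rw [this, mul_sub, Finset.mul_sum, Finset.mul_sum, Finset.mul_sum, ← Finset.sum_sub_distrib,
      ← Finset.sum_add_distrib]
    refine Finset.sum_congr rfl fun i _ => ?_
    simp only [χ]
    push_cast
    split_ifs <;> ring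
  have h3 : w e - ∑ i, w i * (r i : ℝ) < 0 := by
    simp only [hrcast] at hlt
    linarith
  have h4 : (0 : ℝ) < a i₀ := by exact_mod_cast ha₀
  have h5 : (0 : ℝ) < r i₀ := by exact_mod_cast hr₀
  have h6 : (a i₀ : ℝ) * (w e - ∑ i, w i * (r i : ℝ)) < 0 := mul_neg_of_pos_of_neg h4 h3
  have h7 : (r i₀ : ℝ) * f v ≤ r i₀ * f v' := mul_le_mul_of_nonneg_left hfv' h5.le
  linarith

end Vale.Agent.P270
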