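import Vale.Agent.P270.Toric.Comb

/-! The Cox expansion: every holomorphic section is a polynomial in the homogeneous coordinates. -/

open Filter Topology

namespace Vale.Agent.P270

/-- An entire function of polynomial growth is a polynomial. -/
theorem exists_polynomial_of_growth {h : ℂ → ℂ} (hh : Differentiable ℂ h) {C : ℝ} {N : ℕ}
    (hC : ∀ x, ‖h x‖ ≤ C * max 1 ‖x‖ ^ N) :
    ∃ p : Polynomial ℂ, p.degree < (N + 1 : ℕ) ∧ ∀ x, h x = p.eval x := by
  have hC0 : 0 ≤ C := by
    have h1 := hC 0
    simp only [norm_zero] at h1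
    rw [max_eq_left zero_le_one, one_pow, mul_one] at h1
    exact (norm_nonneg _).trans h1
  have hder : ∀ k, N < k → iteratedDeriv k h 0 = 0 := by
    intro k hk
    rw [← norm_le_zero_iff]
    have hlim : Tendsto (fun R : ℝ => k.factorial * C * (R⁻¹)) atTop (𝓝 0) := by
      simpa using (tendsto_inv_atTop_zero (𝕜 := ℝ)).const_mul (k.factorial * C)
    refine ge_of_tendsto hlim ?_
    filter_upwards [eventually_ge_atTop (1 : ℝ)] with R hR
    have hR0 : 0 < R := by linarith
    have h1 := Complex.norm_iteratedDeriv_le_of_forall_mem_sphere_norm_le (c := 0) (f := h)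
      (C := C * R ^ N) k hR0 hh.diffContOnCl (fun z hz => by
        have hz' : ‖z‖ = R := by simpa using hz
        have := hC z
        rw [hz', max_eq_right hR] at this
        exact this)
    refine h1.trans ?_
    rw [div_le_iff₀ (pow_pos hR0 k)]
    have h2 : R ^ N ≤ R⁻¹ * R ^ k := by
      have : R⁻¹ * R ^ k = R ^ (k - 1) := by
        obtain ⟨m, rfl⟩ : ∃ m, k = m + 1 := ⟨k - 1, by omega⟩
        rw [pow_succ, Nat.add_sub_cancel]
        field_simp
      rw [this]
      exact pow_le_pow_right₀ hR (by omega)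
    calc (k.factorial : ℝ) * (C * R ^ N) ≤ k.factorial * (C * (R⁻¹ * R ^ k)) := by gcongr
      _ = k.factorial * C * R⁻¹ * R ^ k := by ring
  refine ⟨∑ k ∈ Finset.range (N + 1), Polynomial.monomial k ((k.factorial : ℂ)⁻¹ * iteratedDeriv k h 0),
    ?_, fun x => ?_⟩
  · refine (Polynomial.degree_sum_le _ _).trans_lt ?_
    rw [Finset.sup_lt_iff (by exact_mod_cast WithBot.bot_lt_coe (N + 1))]
    intro k hk
    exact (Polynomial.degree_monomial_le _ _).trans_lt (by exact_mod_cast Finset.mem_range.1 hk)
  · have h1 := Complex.hasSum_taylorSeries_of_entire hh 0 x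
    have h2 := h1.tsum_eq
    rw [← h2, tsum_eq_sum (s := Finset.range (N + 1))]
    · rw [Polynomial.eval_finsetSum]
      refine Finset.sum_congr rfl fun k _ => ?_
      rw [Polynomial.eval_monomial]
      simp only [sub_zero, smul_eq_mul]
      ring
    · intro k hk
      rw [Finset.mem_range] at hk
      rw [hder k (by omega)]
      simp

/-- A function on `(ℂˣ)^n` which is a polynomial of bounded degree in each variable is a
polynomial, whose coefficients are linear combinations of values. -/
theorem exists_interpolation (n N : ℕ) (A : Finset (Fin n)) :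
    ∃ (ι : Type) (_ : Fintype ι) (c : ι → Fin n → ℂ) (b : ι → MvPolynomial (Fin n) ℂ),
      (∀ k i, c k i ≠ 0) ∧ ∀ F : (Fin n → ℂ) → ℂ,
        (∀ t, (∀ i, t i ≠ 0) → ∀ i, ∃ p : Polynomial ℂ, p.degree < (N + 1 : ℕ) ∧
          ∀ x, x ≠ 0 → F (Function.update t i x) = p.eval x) →
        ∀ t, (∀ i, t i ≠ 0) →
          F t = ∑ k, F (fun i => if i ∈ A then c k i else t i) * MvPolynomial.eval t (b k) := by
  classical
  induction A using Finset.induction_on with
  | empty =>
    refine ⟨Unit, inferInstance, fun _ _ => 1, fun _ => 1, fun _ _ => one_ne_zero,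
      fun F _ t _ => ?_⟩
    simp
  | insert a A ha ih =>
    obtain ⟨ι, hι, c, b, hc, hF⟩ := ih
    let nodes : ℕ → ℂ := fun k => (k : ℂ) + 1
    have hnodes : ∀ k, nodes k ≠ 0 := fun k => by
      simp only [nodes]
      exact_mod_cast Nat.succ_ne_zero k
    have hinj : Set.InjOn nodes (Finset.range (N + 1)) := by
      intro x _ y _ hxy
      simp only [nodes, add_left_inj] at hxy
      exact_mod_cast hxy
    refine ⟨ι × Finset.range (N + 1), inferInstance,
      fun k => Function.update (c k.1) a (nodes k.2),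
      fun k => b k.1 * Polynomial.aeval (MvPolynomial.X a)
        (Lagrange.basis (Finset.range (N + 1)) nodes k.2), ?_, ?_⟩
    · rintro ⟨k, j⟩ i
      by_cases h : i = a
      · subst h
        simp [hnodes]
      · simp [Function.update_of_ne h, hc]
    · intro F hp t ht
      rw [hF F hp t ht, Fintype.sum_prod_type]
      refine Finset.sum_congr rfl fun k _ => ?_
      set t' : Fin n → ℂ := fun i => if i ∈ A then c k i else t i with ht'
      have ht'0 : ∀ i, t' i ≠ 0 := by
        intro i
        simp only [ht']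
        split_ifs
        · exact hc k i
        · exact ht i
      obtain ⟨p, hpd, hpe⟩ := hp t' ht'0 a
      have hpi := Lagrange.eq_interpolate (s := Finset.range (N + 1)) (v := nodes) hinj
        (f := p) (by rw [Finset.card_range]; exact hpd)
      have hta : t' a = t a := by simp [ht', ha]
      have h1 : F t' = p.eval (t a) := by
        have := hpe (t' a) (ht'0 a)
        rwa [Function.update_eq_self, hta] at this
      rw [h1, hpi, Lagrange.interpolate_apply, Polynomial.eval_finsetSum, Finset.sum_mul,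
        ← Finset.sum_coe_sort (Finset.range (N + 1))]
      refine Finset.sum_congr rfl fun j _ => ?_
      have h2 : (fun i => if i ∈ insert a A then Function.update (c k) a (nodes j) i else t i) =
          Function.update t' a (nodes j) := by
        ext i
        by_cases h : i = a
        · subst h; simp
        · simp [Finset.mem_insert, h, ht']
      simp only [h2]
      rw [hpe _ (hnodes _), Polynomial.eval_mul, Polynomial.eval_C]
      have h3 : MvPolynomial.eval t (Polynomial.aeval (MvPolynomial.X a)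
          (Lagrange.basis (Finset.range (N + 1)) nodes j)) =
          Polynomial.eval (t a) (Lagrange.basis (Finset.range (N + 1)) nodes j) := by
        have hid : (MvPolynomial.eval t).comp MvPolynomial.C = RingHom.id ℂ := by
          ext x
          simp
        rw [Polynomial.aeval_def, Polynomial.hom_eval₂, MvPolynomial.algebraMap_eq, hid,
          Polynomial.eval₂_id, MvPolynomial.eval_X]
      rw [map_mul, h3]
      ring

namespace ToricBundle

variable {g n s : ℕ} {X : ToricBundle g n s}

theorem isStable_of_ne_zero (V : ToricVariety n s) {t : Fin n → ℂ} (ht : ∀ i, t i ≠ 0) :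
    IsStable V.deg V.amp t := by
  obtain ⟨t', ht'⟩ := V.nonempty
  exact ht'.mono fun i hi => absurd hi (ht i)

theorem isStable_update (V : ToricVariety n s) {t : Fin n → ℂ} (ht : ∀ i, t i ≠ 0) (i : Fin n)
    (x : ℂ) : IsStable V.deg V.amp (Function.update t i x) := by
  obtain ⟨t', ht', h0, h1⟩ := V.divisor i
  refine ht'.mono fun i' hi' => ?_
  by_cases h : i' = i
  · rw [h]; exact h0
  · rw [Function.update_of_ne h] at hi'
    exact absurd hi' (ht i')

theorem isOpen_isStable (V : ToricVariety n s) : IsOpen {t | IsStable V.deg V.amp t} := by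
  have : {t | IsStable V.deg V.amp t} = ⋃ (k : ℕ) (χ : Fin n → ℕ)
      (_ : 0 < k ∧ ∀ j, ∑ i, (χ i : ℤ) * V.deg i j = k * V.amp j),
      {t : Fin n → ℂ | ∏ i, t i ^ χ i ≠ 0} := by
    ext t
    simp only [IsStable, Set.mem_iUnion, Set.mem_ofPred_eq, exists_prop, and_assoc]
  rw [this]
  refine isOpen_iUnion fun k => isOpen_iUnion fun χ => isOpen_iUnion fun _ => ?_
  have hc : Continuous fun t : Fin n → ℂ => ∏ i, t i ^ χ i := by fun_prop
  exact isOpen_ne.preimage hc

theorem isOpen_dom (X : ToricBundle g n s) : IsOpen X.dom :=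
  (isOpen_isStable X.F).preimage continuous_snd

theorem vec_zero (T : Torus g) : T.vec 0 = 0 := by
  ext k
  simp [Torus.vec]

theorem val_zero {T : Torus g} (a : Factor T) (z : Fin g → ℂ) : a.val 0 z = 1 := by
  have h := a.cocycle 0 0 z
  rw [add_zero, vec_zero, add_zero] at h
  have h0 := a.val_ne_zero 0 z
  field_simp at h
  exact h.symm

/-- The coefficients of the Cox expansion of a section. -/
structure Expansion (D : X.LineBundle) (f : (Fin g → ℂ) × (Fin n → ℂ) → ℂ) where
  supp : Finset (Fin n →₀ ℕ)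
  coef : (Fin n →₀ ℕ) → (Fin g → ℂ) → ℂ
  holo : ∀ χ, Differentiable ℂ (coef χ)
  ne_zero : ∀ χ ∈ supp, ∃ z, coef χ z ≠ 0
  degree : ∀ χ ∈ supp, ∀ j, ∑ i, (χ i : ℤ) * X.F.deg i j = D.1.toAdd j
  eval : ∀ y ∈ X.dom, f y = ∑ χ ∈ supp, coef χ y.1 * ∏ i, y.2 i ^ χ i
  equivar : ∀ χ ∈ supp, ∀ u z, coef χ (z + X.T.vec u) * ∏ i, (X.L i).val u z ^ χ i =
    D.2.val u z * coef χ z

theorem act_zero (c : Fin s → ℂˣ) (y : (Fin g → ℂ) × (Fin n → ℂ)) :
    X.act 0 c y = (y.1, fun i => (∏ j, (c j : ℂ) ^ X.F.deg i j) * y.2 i) := by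
  unfold act
  rw [vec_zero, add_zero]
  simp only [val_zero, mul_one]

theorem section_homog {D : X.LineBundle} {f : (Fin g → ℂ) × (Fin n → ℂ) → ℂ}
    (hf : IsSection D f) (c : Fin s → ℂˣ) {y : (Fin g → ℂ) × (Fin n → ℂ)} (hy : y ∈ X.dom) :
    f (y.1, fun i => (∏ j, (c j : ℂ) ^ X.F.deg i j) * y.2 i) =
      (∏ j, (c j : ℂ) ^ D.1.toAdd j) * f y := by
  have := hf.2 0 c y hy
  rwa [act_zero, val_zero, mul_one] at this

theorem prod_zpow_eq {ι : Type*} {R : ℂ} (hR : R ≠ 0) (S : Finset ι) (a : ι → ℤ) :
    ∏ j ∈ S, R ^ a j = R ^ ∑ j ∈ S, a j := by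
  classical
  induction S using Finset.induction_on with
  | empty => simp
  | insert x S hx ih => rw [Finset.prod_insert hx, Finset.sum_insert hx, zpow_add₀ hR, ih]

/-- The maximum principle in each variable. -/
theorem norm_le_of_unit {D : X.LineBundle} {f : (Fin g → ℂ) × (Fin n → ℂ) → ℂ}
    (hf : IsSection D f) (z : Fin g → ℂ) {M : ℝ} (hM : ∀ t : Fin n → ℂ, (∀ i, ‖t i‖ = 1) →
      ‖f (z, t)‖ ≤ M) (A : Finset (Fin n)) : ∀ t : Fin n → ℂ, (∀ i ∈ A, t i ≠ 0 ∧ ‖t i‖ ≤ 1) →
      (∀ i, i ∉ A → ‖t i‖ = 1) → ‖f (z, t)‖ ≤ M := by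
  classical
  induction A using Finset.induction_on with
  | empty => exact fun t _ h => hM t fun i => h i (Finset.notMem_empty i)
  | insert a A ha ih =>
    intro t h1 h2
    have ht0 : ∀ i, t i ≠ 0 := by
      intro i
      by_cases hi : i ∈ insert a A
      · exact (h1 i hi).1
      · intro h0
        have := h2 i hi
        rw [h0, norm_zero] at this
        exact zero_ne_one this
    have hd : Differentiable ℂ fun x : ℂ => f (z, Function.update t a x) := by
      intro x
      have hx : (z, Function.update t a x) ∈ X.dom := isStable_update X.F ht0 a x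
      have h3 : DifferentiableAt ℂ f (z, Function.update t a x) :=
        hf.1.differentiableAt ((isOpen_dom X).mem_nhds hx)
      have h4 : DifferentiableAt ℂ (fun x : ℂ => (z, Function.update t a x)) x := by
        refine (differentiableAt_const z).prodMk (differentiableAt_pi.2 fun i => ?_)
        by_cases hi : i = a
        · subst hi
          simp only [Function.update_self]
          exact differentiableAt_id
        · simp only [Function.update_of_ne hi]
          exact differentiableAt_const _
      exact DifferentiableAt.comp x (f := fun x : ℂ => (z, Function.update t a x)) h3 h4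
    have h5 := Complex.norm_le_of_forall_mem_frontier_norm_le (U := Metric.ball (0 : ℂ) 1)
      Metric.isBounded_ball hd.diffContOnCl (C := M) (fun x hx => by
        have hx1 : ‖x‖ = 1 := by
          rw [frontier_ball _ one_ne_zero] at hx
          simpa using hx
        refine ih _ (fun i hi => ?_) (fun i hi => ?_)
        · have hia : i ≠ a := fun h => ha (h ▸ hi)
          rw [Function.update_of_ne hia]
          exact h1 i (Finset.mem_insert_of_mem hi)
        · by_cases hia : i = a
          · subst hia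
            simpa using hx1
          · rw [Function.update_of_ne hia]
            exact h2 i (by simp [Finset.mem_insert, hia, hi]))
      (z := t a) (by
        rw [closure_ball _ one_ne_zero]
        simpa using (h1 a (Finset.mem_insert_self _ _)).2)
    simpa using h5

/-- A section has polynomial growth in the homogeneous coordinates. -/
theorem norm_le_growth {D : X.LineBundle} {f : (Fin g → ℂ) × (Fin n → ℂ) → ℂ}
    (hf : IsSection D f) : ∃ N : ℕ, ∀ z : Fin g → ℂ, ∃ M : ℝ, 0 ≤ M ∧ ∀ t : Fin n → ℂ,
      (∀ i, t i ≠ 0) → ∀ R : ℝ, 1 ≤ R → (∀ i, ‖t i‖ ≤ R) → ‖f (z, t)‖ ≤ M * R ^ N := by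
  obtain ⟨w, hw⟩ := X.F.projective
  set e : ℤ := ∑ j, w j * D.1.toAdd j with he
  refine ⟨e.natAbs, fun z => ?_⟩
  -- the maximum on the unit torus
  have hcomp : IsCompact {t : Fin n → ℂ | ∀ i, ‖t i‖ = 1} := by
    have : {t : Fin n → ℂ | ∀ i, ‖t i‖ = 1} = Set.univ.pi fun _ => Metric.sphere (0 : ℂ) 1 := by
      ext t
      simp
    rw [this]
    exact isCompact_univ_pi fun _ => isCompact_sphere _ _
  have hcont : ContinuousOn (fun t : Fin n → ℂ => ‖f (z, t)‖) {t : Fin n → ℂ | ∀ i, ‖t i‖ = 1} := by
    refine ContinuousOn.norm ?_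
    have h1 : ContinuousOn f X.dom := hf.1.continuousOn
    refine h1.comp (by fun_prop) fun t ht => ?_
    refine isStable_of_ne_zero X.F fun i h0 => ?_
    have h0' : t i = 0 := h0
    have := ht i
    rw [h0', norm_zero] at this
    exact zero_ne_one this
  obtain ⟨M, hM⟩ := hcomp.bddAbove_image hcont
  have hM' : ∀ t : Fin n → ℂ, (∀ i, ‖t i‖ = 1) → ‖f (z, t)‖ ≤ M := fun t ht =>
    hM ⟨t, ht, rfl⟩
  have hM0 : 0 ≤ M := (norm_nonneg _).trans (hM' (fun _ => 1) fun _ => norm_one)
  refine ⟨M, hM0, fun t ht R hR htR => ?_⟩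
  have hR0 : 0 < R := by linarith
  have hRC : (R : ℂ) ≠ 0 := by exact_mod_cast hR0.ne'
  -- rescale
  let c : Fin s → ℂˣ := fun j => (Units.mk0 (R : ℂ) hRC) ^ w j
  have hc : ∀ a : Fin s → ℤ, ∏ j, (c j : ℂ) ^ a j = (R : ℂ) ^ (∑ j, w j * a j) := by
    intro a
    have : ∀ j, (c j : ℂ) ^ a j = (R : ℂ) ^ (w j * a j) := by
      intro j
      simp only [c, Units.val_zpow_eq_zpow_val, Units.val_mk0, zpow_mul]
    simp only [this]
    exact prod_zpow_eq hRC _ _
  let t' : Fin n → ℂ := fun i => (R : ℂ) ^ (-(∑ j, w j * X.F.deg i j)) * t i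
  have ht'0 : ∀ i, t' i ≠ 0 := fun i => mul_ne_zero (zpow_ne_zero _ hRC) (ht i)
  have h1 := section_homog hf c (y := (z, t')) (isStable_of_ne_zero X.F ht'0)
  have h2 : (fun i => (∏ j, (c j : ℂ) ^ X.F.deg i j) * t' i) = t := by
    ext i
    rw [hc]
    simp only [t']
    rw [← mul_assoc, ← zpow_add₀ hRC, add_neg_cancel, zpow_zero, one_mul]
  rw [hc] at h1
  change f (z, fun i => (∏ j, (c j : ℂ) ^ X.F.deg i j) * t' i) = _ at h1
  rw [h2] at h1
  rw [h1, norm_mul, norm_zpow, Complex.norm_real, Real.norm_of_nonneg hR0.le]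
  have h3 : ‖f (z, t')‖ ≤ M := by
    refine norm_le_of_unit hf z hM' Finset.univ t' (fun i _ => ⟨ht'0 i, ?_⟩)
      (fun i hi => absurd (Finset.mem_univ i) hi)
    simp only [t']
    rw [norm_mul, norm_zpow, Complex.norm_real, Real.norm_of_nonneg hR0.le, zpow_neg,
      inv_mul_le_iff₀ (zpow_pos hR0 _), mul_one]
    refine (htR i).trans ?_
    have h4 : (1 : ℤ) ≤ ∑ j, w j * X.F.deg i j := hw i
    calc R = R ^ (1 : ℤ) := (zpow_one R).symm
      _ ≤ _ := zpow_le_zpow_right₀ hR h4
  have h5 : R ^ e ≤ R ^ e.natAbs := by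
    rw [← zpow_natCast]
    exact zpow_le_zpow_right₀ hR Int.le_natAbs
  calc R ^ (∑ j, w j * D.1.toAdd j) * ‖f (z, t')‖ ≤ R ^ e.natAbs * M := by
        gcongr
    _ = M * R ^ e.natAbs := mul_comm _ _

/-- A polynomial which vanishes on `(ℂˣ)^n` is zero. -/
theorem coef_eq_zero (S : Finset (Fin n →₀ ℕ)) (a : (Fin n →₀ ℕ) → ℂ)
    (h : ∀ t : Fin n → ℂ, (∀ i, t i ≠ 0) → ∑ χ ∈ S, a χ * ∏ i, t i ^ χ i = 0) :
    ∀ χ ∈ S, a χ = 0 := by
  classical
  have hinf : ∀ _ : Fin n, ({x : ℂ | x ≠ 0}).Infinite := fun _ =>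
    (Set.finite_singleton (0 : ℂ)).infinite_compl
  have hQ : (∑ χ ∈ S, MvPolynomial.monomial χ (a χ) : MvPolynomial (Fin n) ℂ) = 0 := by
    refine MvPolynomial.funext_set (fun _ => {x : ℂ | x ≠ 0}) hinf fun t ht => ?_
    rw [map_sum, map_zero, ← h t fun i => ht i (Set.mem_univ i)]
    refine Finset.sum_congr rfl fun χ _ => ?_
    rw [MvPolynomial.eval_monomial, Finsupp.prod_fintype _ _ fun i => pow_zero _]
  intro χ hχ
  have := congrArg (MvPolynomial.coeff χ) hQ
  rw [MvPolynomial.coeff_sum, MvPolynomial.coeff_zero] at this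
  simp only [MvPolynomial.coeff_monomial] at this
  rw [Finset.sum_ite_eq' S χ a, if_pos hχ] at this
  exact this

/-- Every section has a Cox expansion. -/
theorem exists_expansion {D : X.LineBundle} {f : (Fin g → ℂ) × (Fin n → ℂ) → ℂ}
    (hf : IsSection D f) : Nonempty (Expansion D f) := by
  classical
  obtain ⟨N, hN⟩ := norm_le_growth hf
  obtain ⟨ι, hι, c, b, hc, hint⟩ := exists_interpolation n N Finset.univ
  have hdiffAt : ∀ y ∈ X.dom, DifferentiableAt ℂ f y := fun y hy =>
    hf.1.differentiableAt ((isOpen_dom X).mem_nhds hy)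
  -- each section is a polynomial in each variable
  have hpoly : ∀ z : Fin g → ℂ, ∀ t : Fin n → ℂ, (∀ i, t i ≠ 0) → ∀ i,
      ∃ p : Polynomial ℂ, p.degree < (N + 1 : ℕ) ∧
        ∀ x, x ≠ 0 → f (z, Function.update t i x) = p.eval x := by
    intro z t ht i
    obtain ⟨M, hM0, hM⟩ := hN z
    have hd : Differentiable ℂ fun x : ℂ => f (z, Function.update t i x) := by
      intro x
      have hx : (z, Function.update t i x) ∈ X.dom := isStable_update X.F ht i x
      have h4 : DifferentiableAt ℂ (fun x : ℂ => (z, Function.update t i x)) x := by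
        refine (differentiableAt_const z).prodMk (differentiableAt_pi.2 fun i' => ?_)
        by_cases hi : i' = i
        · subst hi
          simp only [Function.update_self]
          exact differentiableAt_id
        · simp only [Function.update_of_ne hi]
          exact differentiableAt_const _
      exact DifferentiableAt.comp x (f := fun x : ℂ => (z, Function.update t i x)) (hdiffAt _ hx) h4
    set K : ℝ := 1 + ∑ k, ‖t k‖ with hK
    have hK1 : 1 ≤ K := by
      rw [hK]
      have : 0 ≤ ∑ k, ‖t k‖ := Finset.sum_nonneg fun k _ => norm_nonneg _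
      linarith
    have hgr : ∀ x, ‖f (z, Function.update t i x)‖ ≤ M * K ^ N * max 1 ‖x‖ ^ N := by
      have hclosed : IsClosed {x : ℂ | ‖f (z, Function.update t i x)‖ ≤
          M * K ^ N * max 1 ‖x‖ ^ N} := by
        refine isClosed_le hd.continuous.norm ?_
        fun_prop
      have hsub : {x : ℂ | x ≠ 0} ⊆ {x : ℂ | ‖f (z, Function.update t i x)‖ ≤
          M * K ^ N * max 1 ‖x‖ ^ N} := by
        intro x hx
        have hx0 : x ≠ 0 := hx
        have h1 := hM (Function.update t i x) (fun i' => by
          by_cases hi : i' = i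
          · subst hi
            simpa using hx0
          · rw [Function.update_of_ne hi]
            exact ht i') (K * max 1 ‖x‖) (one_le_mul_of_one_le_of_one_le hK1 (le_max_left _ _))
          (fun i' => by
            by_cases hi : i' = i
            · subst hi
              rw [Function.update_self]
              calc ‖x‖ ≤ max 1 ‖x‖ := le_max_right _ _
                _ = 1 * max 1 ‖x‖ := (one_mul _).symm
                _ ≤ K * max 1 ‖x‖ := by gcongr
            · rw [Function.update_of_ne hi]
              have h2 : ‖t i'‖ ≤ K := by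
                rw [hK]
                have := Finset.single_le_sum (f := fun k => ‖t k‖)
                  (fun k _ => norm_nonneg (t k)) (Finset.mem_univ i')
                linarith
              calc ‖t i'‖ ≤ K := h2
                _ = K * 1 := (mul_one _).symm
                _ ≤ K * max 1 ‖x‖ := by gcongr; exact le_max_left _ _)
        change ‖f (z, Function.update t i x)‖ ≤ M * K ^ N * max 1 ‖x‖ ^ N
        rw [mul_pow] at h1
        linarith
      intro x
      have hdense : Dense {x : ℂ | x ≠ 0} := dense_compl_singleton (0 : ℂ)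
      exact hclosed.closure_subset_iff.2 hsub (hdense x)
    obtain ⟨p, hp1, hp2⟩ := exists_polynomial_of_growth hd hgr
    exact ⟨p, hp1, fun x _ => hp2 x⟩
  -- the coefficients
  let coef : (Fin n →₀ ℕ) → (Fin g → ℂ) → ℂ := fun χ z =>
    ∑ k, f (z, c k) * MvPolynomial.coeff χ (b k)
  let S₀ : Finset (Fin n →₀ ℕ) := Finset.univ.biUnion fun k => (b k).support
  let S : Finset (Fin n →₀ ℕ) := S₀.filter fun χ => ∃ z, coef χ z ≠ 0
  have hS : ∀ χ, χ ∉ S → ∀ z, coef χ z = 0 := by
    intro χ hχ z
    by_contra hne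
    by_cases h : χ ∈ S₀
    · exact hχ (Finset.mem_filter.2 ⟨h, z, hne⟩)
    · apply hne
      refine Finset.sum_eq_zero fun k _ => ?_
      have : χ ∉ (b k).support := fun hk => h (Finset.mem_biUnion.2 ⟨k, Finset.mem_univ k, hk⟩)
      rw [MvPolynomial.notMem_support_iff.1 this, mul_zero]
  have heval : ∀ z : Fin g → ℂ, ∀ t : Fin n → ℂ, (∀ i, t i ≠ 0) →
      f (z, t) = ∑ χ ∈ S, coef χ z * ∏ i, t i ^ χ i := by
    intro z t ht
    have h1 := hint (fun t => f (z, t)) (hpoly z) t ht
    simp only [Finset.mem_univ, if_true] at h1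
    rw [h1]
    have h2 : ∀ k, MvPolynomial.eval t (b k) =
        ∑ χ ∈ S₀, MvPolynomial.coeff χ (b k) * ∏ i, t i ^ χ i := by
      intro k
      rw [MvPolynomial.eval_eq']
      refine Finset.sum_subset (fun χ hχ => Finset.mem_biUnion.2 ⟨k, Finset.mem_univ k, hχ⟩)
        fun χ _ hχ => ?_
      rw [MvPolynomial.notMem_support_iff.1 hχ, zero_mul]
    simp only [h2, Finset.mul_sum]
    rw [Finset.sum_comm]
    have h3 : ∀ χ ∈ S₀, ∑ k, f (z, c k) * (MvPolynomial.coeff χ (b k) * ∏ i, t i ^ χ i) =
        coef χ z * ∏ i, t i ^ χ i := by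
      intro χ _
      simp only [coef, Finset.sum_mul]
      refine Finset.sum_congr rfl fun k _ => by ring
    rw [Finset.sum_congr rfl h3]
    symm
    refine Finset.sum_subset (Finset.filter_subset _ _) fun χ _ hχ => ?_
    rw [hS χ hχ z, zero_mul]
  refine ⟨⟨S, coef, fun χ => ?_, fun χ hχ => (Finset.mem_filter.1 hχ).2, fun χ hχ j => ?_,
    fun y hy => ?_, fun χ hχ u z => ?_⟩⟩
  · -- holomorphic
    refine Differentiable.fun_sum fun k _ => Differentiable.mul_const ?_ _
    intro z
    have hz : (z, c k) ∈ X.dom := isStable_of_ne_zero X.F (hc k)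
    exact DifferentiableAt.comp z (f := fun z => (z, c k)) (hdiffAt _ hz)
      (differentiableAt_id.prodMk (differentiableAt_const _))
  · -- degree
    obtain ⟨z, hz⟩ := (Finset.mem_filter.1 hχ).2
    let u2 : ℂˣ := Units.mk0 2 two_ne_zero
    let cc : Fin s → ℂˣ := Function.update 1 j u2
    have hcc : ∀ a : Fin s → ℤ, ∏ j', (cc j' : ℂ) ^ a j' = 2 ^ a j := by
      intro a
      rw [Finset.prod_eq_single j]
      · simp [cc, u2]
      · intro j' _ hj'
        simp [cc, Function.update_of_ne hj']
      · intro h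
        exact absurd (Finset.mem_univ _) h
    have h1 := coef_eq_zero S
      (fun χ => ((2 : ℂ) ^ (∑ i, (χ i : ℤ) * X.F.deg i j) - 2 ^ D.1.toAdd j) * coef χ z)
      (fun t ht => by
        have h2 := section_homog hf cc (y := (z, t)) (isStable_of_ne_zero X.F ht)
        simp only [hcc] at h2
        have h3 : ∀ i, (2 : ℂ) ^ X.F.deg i j * t i ≠ 0 := fun i =>
          mul_ne_zero (zpow_ne_zero _ two_ne_zero) (ht i)
        rw [heval z _ h3, heval z t ht, ← sub_eq_zero, Finset.mul_sum,
          ← Finset.sum_sub_distrib] at h2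
        rw [← h2]
        refine Finset.sum_congr rfl fun χ _ => ?_
        have h4 : ∏ i, ((2 : ℂ) ^ X.F.deg i j * t i) ^ χ i =
            2 ^ (∑ i, (χ i : ℤ) * X.F.deg i j) * ∏ i, t i ^ χ i := by
          simp only [mul_pow, Finset.prod_mul_distrib]
          congr 1
          rw [← prod_zpow_eq two_ne_zero]
          refine Finset.prod_congr rfl fun i _ => ?_
          rw [mul_comm, zpow_mul, zpow_natCast]
        rw [h4]
        ring) χ hχ
    rcases mul_eq_zero.1 h1 with h2 | h2
    · have h3 := congrArg (fun x : ℂ => ‖x‖) (sub_eq_zero.1 h2)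
      simp only [norm_zpow, Complex.norm_ofNat] at h3
      exact zpow_right_injective₀ (by norm_num) (by norm_num) h3
    · exact absurd h2 hz
  · -- evaluation on the whole domain
    let tt : ℂ → Fin n → ℂ := fun ε i => if y.2 i = 0 then ε else y.2 i
    have htt : Continuous tt := by
      refine continuous_pi fun i => ?_
      by_cases h : y.2 i = 0
      · simp only [tt, h, if_true]
        exact continuous_id
      · simp only [tt, h, if_false]
        exact continuous_const
    have htt0 : tt 0 = y.2 := by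
      ext i
      by_cases h : y.2 i = 0
      · simp [tt, h]
      · simp [tt, h]
    have hyy : (y.1, tt 0) = y := by rw [htt0]
    have h1 : Tendsto (fun ε => f (y.1, tt ε)) (𝓝[≠] 0) (𝓝 (f y)) := by
      have h2 : ContinuousAt f (y.1, tt 0) := by
        rw [hyy]
        exact (hdiffAt y hy).continuousAt
      have h3 : ContinuousAt (fun ε => f (y.1, tt ε)) 0 :=
        ContinuousAt.comp (f := fun ε => (y.1, tt ε)) h2
          (continuousAt_const.prodMk htt.continuousAt)
      have h4 := h3.tendsto
      rw [hyy] at h4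
      exact h4.mono_left nhdsWithin_le_nhds
    have h2 : Tendsto (fun ε => ∑ χ ∈ S, coef χ y.1 * ∏ i, tt ε i ^ χ i) (𝓝[≠] 0)
        (𝓝 (∑ χ ∈ S, coef χ y.1 * ∏ i, y.2 i ^ χ i)) := by
      have h3 : Continuous fun ε => ∑ χ ∈ S, coef χ y.1 * ∏ i, tt ε i ^ χ i := by
        refine continuous_finsetSum _ fun χ _ => continuous_const.mul
          (continuous_finsetProd _ fun i _ => ((continuous_apply i).comp htt).pow _)
      have h4 := (h3.continuousAt (x := 0)).tendsto
      rw [htt0] at h4
      exact h4.mono_left nhdsWithin_le_nhds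
    refine tendsto_nhds_unique h1 (h2.congr' ?_)
    filter_upwards [self_mem_nhdsWithin] with ε hε
    have hε0 : ε ≠ 0 := hε
    symm
    refine heval y.1 (tt ε) fun i => ?_
    by_cases h : y.2 i = 0
    · simpa [tt, h] using hε0
    · simp [tt, h]
  · -- equivariance
    have h1 := coef_eq_zero S
      (fun χ => coef χ (z + X.T.vec u) * ∏ i, (X.L i).val u z ^ χ i - D.2.val u z * coef χ z)
      (fun t ht => by
        have h2 := hf.2 u 1 (z, t) (isStable_of_ne_zero X.F ht)
        have h3 : X.act u 1 (z, t) = (z + X.T.vec u, fun i => (X.L i).val u z * t i) := by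
          simp [act]
        have h4 : ∀ i, (X.L i).val u z * t i ≠ 0 := fun i =>
          mul_ne_zero ((X.L i).val_ne_zero u z) (ht i)
        rw [h3, heval _ _ h4, heval z t ht] at h2
        simp only [Pi.one_apply, Units.val_one, one_zpow, Finset.prod_const_one, one_mul] at h2
        rw [← sub_eq_zero, Finset.mul_sum, ← Finset.sum_sub_distrib] at h2
        rw [← h2]
        refine Finset.sum_congr rfl fun χ _ => ?_
        simp only [mul_pow, Finset.prod_mul_distrib]
        ring) χ hχ
    exact sub_eq_zero.1 h1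

end ToricBundle

end Vale.Agent.P270
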