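import Vale.Agent.P270.Toric.Key

/-! Assembly: semiampleness criterion and the main theorem, from the theory of line bundles on the
torus. -/

open Filter Topology

namespace Vale.Agent.P270

section Interface

variable {g : ℕ} {T : Torus g}

/-- The semicharacter of a line bundle (up to the exponential of a linear form). -/
noncomputable def ch' (N : Factor T) (u : Fin (2 * g) → ℤ) : ℂ :=
  N.val u (fun k => -(1 / 2) * T.vec u k)

/-- `N` is trivial on the sublattice `S`. -/
def TrivOn' (N : Factor T) (S : Set (Fin (2 * g) → ℤ)) : Prop :=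
  ∃ γ : Fin g → ℂ, ∀ u ∈ S, ch' N u = Complex.exp (∑ k, γ k * T.vec u k)

/-- The facts on line bundles on complex tori which are used. -/
structure TorusTheory (T : Torus g) extends QForm T where
  flat : ∀ P : Factor T, (∀ u z, P.val u z = P.val u 0) → ∀ x, q P x = 0
  bound : ∀ N, ∃ C : ℝ, ∀ x, |q N x| ≤ C * ∑ k, ‖x k‖ ^ 2
  ample : T.IsAbelian → ∃ (A : Factor T) (c : ℝ), 0 < c ∧ ∀ x, c * ∑ k, ‖x k‖ ^ 2 ≤ q A x
  triv : ∀ E f, Sec' E f → (∃ z, f z ≠ 0) → TrivOn' E {u | q E (T.vec u) = 0}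
  exist : ∀ N, (∀ x, 0 ≤ q N x) → TrivOn' N {u | q N (T.vec u) = 0} →
    ∃ k₀ : ℕ, 0 < k₀ ∧ ∀ k, k₀ ≤ k → ∀ z, ∃ f, Sec' (N ^ k) f ∧ f z ≠ 0
  ext : ∀ N, (∀ x, 0 ≤ q N x) → ∃ P : Factor T, (∀ u z, P.val u z = P.val u 0) ∧
    ∀ u, q N (T.vec u) = 0 → ch' (N * P) u = 1

theorem ch_mul (N N' : Factor T) (u : Fin (2 * g) → ℤ) : ch' (N * N') u = ch' N u * ch' N' u := rfl

theorem ch_inv (N : Factor T) (u : Fin (2 * g) → ℤ) : ch' N⁻¹ u = (ch' N u)⁻¹ := rfl

theorem TrivOn'.mul {N N' : Factor T} {S : Set (Fin (2 * g) → ℤ)} (h : TrivOn' N S)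
    (h' : TrivOn' N' S) : TrivOn' (N * N') S := by
  obtain ⟨γ, hγ⟩ := h
  obtain ⟨γ', hγ'⟩ := h'
  refine ⟨γ + γ', fun u hu => ?_⟩
  rw [ch_mul, hγ u hu, hγ' u hu, ← Complex.exp_add]
  congr 1
  simp only [Pi.add_apply, add_mul, Finset.sum_add_distrib]

theorem TrivOn'.inv {N : Factor T} {S : Set (Fin (2 * g) → ℤ)} (h : TrivOn' N S) :
    TrivOn' N⁻¹ S := by
  obtain ⟨γ, hγ⟩ := h
  refine ⟨-γ, fun u hu => ?_⟩
  rw [ch_inv, hγ u hu, ← Complex.exp_neg]
  congr 1
  simp only [Pi.neg_apply, neg_mul, Finset.sum_neg_distrib]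

theorem trivOn_one (S : Set (Fin (2 * g) → ℤ)) : TrivOn' (1 : Factor T) S :=
  ⟨0, fun u _ => by simp [ch']⟩

theorem TrivOn'.pow {N : Factor T} {S : Set (Fin (2 * g) → ℤ)} (h : TrivOn' N S) (k : ℕ) :
    TrivOn' (N ^ k) S := by
  induction k with
  | zero => rw [pow_zero]; exact trivOn_one S
  | succ k ih => rw [pow_succ]; exact ih.mul h

theorem TrivOn'.zpow {N : Factor T} {S : Set (Fin (2 * g) → ℤ)} (h : TrivOn' N S) (k : ℤ) :
    TrivOn' (N ^ k) S := by
  cases k with
  | ofNat k => simpa using h.pow k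
  | negSucc k => rw [zpow_negSucc]; exact (h.pow _).inv

theorem TrivOn'.mono {N : Factor T} {S S' : Set (Fin (2 * g) → ℤ)} (h : TrivOn' N S)
    (hS : S' ⊆ S) : TrivOn' N S' := by
  obtain ⟨γ, hγ⟩ := h
  exact ⟨γ, fun u hu => hγ u (hS hu)⟩

end Interface

theorem Factor.pow_val0 {g : ℕ} {T : Torus g} (N : Factor T) (k : ℕ) (u : Fin (2 * g) → ℤ)
    (z : Fin g → ℂ) : (N ^ k).val u z = N.val u z ^ k := by
  induction k with
  | zero => simp
  | succ k ih => rw [pow_succ, Factor.mul_val, ih, pow_succ]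

theorem Factor.zpow_val0 {g : ℕ} {T : Torus g} (N : Factor T) (k : ℤ) (u : Fin (2 * g) → ℤ)
    (z : Fin g → ℂ) : (N ^ k).val u z = N.val u z ^ k := by
  cases k with
  | ofNat k => simpa using N.pow_val0 k u z
  | negSucc k => rw [zpow_negSucc, Factor.inv_val, Factor.pow_val0, zpow_negSucc]

theorem Factor.prod_val0 {g : ℕ} {T : Torus g} {ι : Type*} (S : Finset ι) (N : ι → Factor T)
    (u : Fin (2 * g) → ℤ) (z : Fin g → ℂ) :
    (∏ i ∈ S, N i).val u z = ∏ i ∈ S, (N i).val u z := by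
  classical
  induction S using Finset.induction_on with
  | empty => simp
  | insert a S ha ih => rw [Finset.prod_insert ha, Finset.prod_insert ha, Factor.mul_val, ih]

namespace ToricBundle

variable {g n s : ℕ} {X : ToricBundle g n s} (TT : TorusTheory X.T)

/-- The restriction of the line bundle `D` to the fixed section of `v`. -/
noncomputable def rest (v : Vertex X.F) (D : X.LineBundle) : Factor X.T :=
  D.2 * (∏ i, X.L i ^ (v.coord (R := ℤ) D.1.toAdd i))⁻¹

theorem q_rest (v : Vertex X.F) (D : X.LineBundle) (x : Fin g → ℂ) :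
    TT.q (rest v D) x = hv TT.toQForm v D x := by
  unfold rest hv
  rw [TT.q_mul, TT.q_inv, TT.q_prod]
  simp only [TT.q_zpow]
  ring

theorem rest_pow (v : Vertex X.F) (D : X.LineBundle) (k : ℕ) :
    rest v (D ^ k) = rest v D ^ k := by
  unfold rest
  rw [mul_pow, inv_pow, ← Finset.prod_pow, Prod.pow_snd]
  congr 2
  refine Finset.prod_congr rfl fun i _ => ?_
  rw [← zpow_natCast (X.L i ^ _), ← zpow_mul]
  congr 1
  unfold Vertex.coord
  rw [Finset.sum_mul]
  refine Finset.sum_congr rfl fun j _ => ?_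
  rw [pow_fst]
  ring

/-- Sections of the restriction to a fixed section extend, if the coordinates are nonnegative. -/
theorem extend_section {D : X.LineBundle} (v : Vertex X.F)
    (hpos : ∀ i, 0 ≤ v.coord (R := ℤ) D.1.toAdd i) {f : (Fin g → ℂ) → ℂ}
    (hf : Sec' (rest v D) f) :
    IsSection D fun y => f y.1 * ∏ i, y.2 i ^ (v.coord (R := ℤ) D.1.toAdd i).toNat := by
  constructor
  · have h1 : Differentiable ℂ fun y : (Fin g → ℂ) × (Fin n → ℂ) => f y.1 :=
      hf.1.comp differentiable_fst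
    have h2 : Differentiable ℂ fun y : (Fin g → ℂ) × (Fin n → ℂ) =>
        ∏ i, y.2 i ^ (v.coord (R := ℤ) D.1.toAdd i).toNat := by
      fun_prop
    exact (h1.mul h2).differentiableOn
  · intro u c y _
    have h1 : f (y.1 + X.T.vec u) = (rest v D).val u y.1 * f y.1 := hf.2 u y.1
    simp only [act]
    rw [h1]
    unfold rest
    rw [Factor.mul_val, Factor.inv_val, Factor.prod_val0]
    simp only [Factor.zpow_val0]
    have h2 : ∀ x : ℂ, ∀ i, x ^ (v.coord (R := ℤ) D.1.toAdd i).toNat =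
        x ^ (v.coord (R := ℤ) D.1.toAdd i) := by
      intro x i
      conv_rhs => rw [← Int.toNat_of_nonneg (hpos i)]
      rw [zpow_natCast]
    have h3 : ∏ i, ((∏ j, (c j : ℂ) ^ X.F.deg i j) * (X.L i).val u y.1 * y.2 i) ^
        (v.coord (R := ℤ) D.1.toAdd i).toNat =
        (∏ j, (c j : ℂ) ^ D.1.toAdd j) * (∏ i, (X.L i).val u y.1 ^ v.coord (R := ℤ) D.1.toAdd i) *
          ∏ i, y.2 i ^ (v.coord (R := ℤ) D.1.toAdd i).toNat := by
      simp only [mul_pow, Finset.prod_mul_distrib]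
      congr 1
      congr 1
      · simp only [h2, ← Finset.prod_zpow]
        rw [Finset.prod_comm]
        refine Finset.prod_congr rfl fun j _ => ?_
        have hcj : (c j : ℂ) ≠ 0 := (c j).ne_zero
        simp only [← zpow_mul]
        rw [prod_zpow_eq hcj]
        congr 1
        have := v.deg_coord (R := ℤ) D.1.toAdd j
        simp only [Int.cast_id] at this
        rw [← this]
        refine Finset.sum_congr rfl fun i _ => by ring
      · simp only [h2]
    rw [h3]
    have h4 : ∏ i, (X.L i).val u y.1 ^ v.coord (R := ℤ) D.1.toAdd i ≠ 0 :=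
      Finset.prod_ne_zero_iff.2 fun i _ => zpow_ne_zero _ ((X.L i).val_ne_zero u y.1)
    field_simp

/-- Criterion for semiampleness. -/
theorem isSemiample_of {D : X.LineBundle} (hpos : ∀ (v : Vertex X.F) i,
    0 ≤ v.coord (R := ℤ) D.1.toAdd i) (hq : ∀ (v : Vertex X.F) x, 0 ≤ TT.q (rest v D) x)
    (htriv : ∀ v : Vertex X.F, ∃ k : ℕ, 0 < k ∧
      TrivOn' (rest v D ^ k) {u | TT.q (rest v D) (X.T.vec u) = 0}) : IsSemiample D := by
  classical
  -- one vertex
  have hone : ∀ v : Vertex X.F, ∃ K : ℕ, 0 < K ∧ ∀ l : ℕ, 0 < l → ∀ z,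
      ∃ f, Sec' (rest v D ^ (K * l)) f ∧ f z ≠ 0 := by
    intro v
    obtain ⟨k, hk, ht⟩ := htriv v
    have hk' : (0 : ℝ) < k := by exact_mod_cast hk
    obtain ⟨k₀, hk₀, h⟩ := TT.exist (rest v D ^ k)
      (fun x => by rw [TT.q_pow]; exact mul_nonneg hk'.le (hq v x))
      (ht.mono fun u hu => by
        have hu' : TT.q (rest v D ^ k) (X.T.vec u) = 0 := hu
        rw [TT.q_pow] at hu'
        exact (mul_eq_zero.1 hu').resolve_left hk'.ne')
    refine ⟨k * k₀, Nat.mul_pos hk hk₀, fun l hl z => ?_⟩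
    obtain ⟨f, hf, hfz⟩ := h (k₀ * l) (Nat.le_mul_of_pos_right _ hl) z
    refine ⟨f, ?_, hfz⟩
    rw [mul_assoc, pow_mul]
    exact hf
  -- finitely many vertices
  let J := {I : Finset (Fin n) // ∃ v : Vertex X.F, v.I = I}
  let rep : J → Vertex X.F := fun I => I.2.choose
  have hrep : ∀ I : J, (rep I).I = I.1 := fun I => I.2.choose_spec
  choose K hK hKl using fun I : J => hone (rep I)
  refine ⟨∏ I, K I, Finset.prod_pos fun I _ => hK I, fun y hy => ?_⟩
  obtain ⟨v, hv⟩ := exists_vertex X.F hy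
  let I : J := ⟨v.I, v, rfl⟩
  have hprod : ∏ I, K I = K I * ∏ I' ∈ Finset.univ.erase I, K I' :=
    (Finset.mul_prod_erase _ _ (Finset.mem_univ I)).symm
  obtain ⟨f, hf, hfz⟩ := hKl I (∏ I' ∈ Finset.univ.erase I, K I')
    (Finset.prod_pos fun I' _ => hK I') y.1
  rw [← hprod, ← rest_pow] at hf
  have hpos' : ∀ i, 0 ≤ (rep I).coord (R := ℤ) (D ^ ∏ I, K I).1.toAdd i := by
    intro i
    have : (rep I).coord (R := ℤ) (D ^ ∏ I, K I).1.toAdd i =
        (∏ I, K I : ℕ) * (rep I).coord (R := ℤ) D.1.toAdd i := by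
      unfold Vertex.coord
      rw [Finset.mul_sum]
      refine Finset.sum_congr rfl fun j _ => ?_
      rw [pow_fst]
      ring
    rw [this]
    exact mul_nonneg (by positivity) (hpos _ i)
  refine ⟨_, extend_section (rep I) hpos' hf, mul_ne_zero hfz ?_⟩
  refine Finset.prod_ne_zero_iff.2 fun i _ => ?_
  by_cases hi : i ∈ v.I
  · exact pow_ne_zero _ (hv i hi)
  · rw [(rep I).coord_zero _ i (by rw [hrep I]; exact hi)]
    simp

include TT in
/-- Flat line bundles on the torus are nef on `X`. -/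
theorem isNef_flat (P : Factor X.T) (hP : ∀ u z, P.val u z = P.val u 0) :
    IsNef (X := X) (1, P) := by
  classical
  obtain ⟨A, c, hc, hA⟩ := TT.ample X.abelian
  choose C hC using fun i => TT.bound (X.L i)
  -- the finitely many vertices
  let J := {I : Finset (Fin n) // ∃ v : Vertex X.F, v.I = I}
  let rep : J → Vertex X.F := fun I => I.2.choose
  have hrep : ∀ I : J, (rep I).I = I.1 := fun I => I.2.choose_spec
  have hcoord : ∀ v : Vertex X.F, v.coord (R := ℤ) X.F.amp =
      (rep ⟨v.I, v, rfl⟩).coord (R := ℤ) X.F.amp := by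
    intro v
    refine (rep ⟨v.I, v, rfl⟩).eq_coord (R := ℤ) _ (fun i hi => v.coord_zero _ i ?_) _ fun j => ?_
    · rw [hrep] at hi
      exact hi
    · exact v.deg_coord (R := ℤ) X.F.amp j
  obtain ⟨r, hr⟩ := exists_nat_gt ((1 + ∑ I : J, ∑ i,
    |(((rep I).coord (R := ℤ) X.F.amp i : ℤ) : ℝ)| * |C i|) / c)
  rw [div_lt_iff₀ hc] at hr
  refine ⟨(Multiplicative.ofAdd X.F.amp, A ^ r), fun k hk => ?_⟩
  have hfst : ((1, P) ^ k * ((Multiplicative.ofAdd X.F.amp, A ^ r) : X.LineBundle) :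
      X.LineBundle).1.toAdd = X.F.amp := by
    ext j
    simp
  have hlow : ∀ (v : Vertex X.F) x, ∑ k, ‖x k‖ ^ 2 ≤
      TT.q (rest v ((1, P) ^ k * ((Multiplicative.ofAdd X.F.amp, A ^ r) : X.LineBundle))) x := by
    intro v x
    unfold rest
    rw [hfst, TT.q_mul, TT.q_inv, TT.q_prod]
    simp only [TT.q_zpow, Prod.snd_mul, Prod.pow_snd, TT.q_mul, TT.q_pow, TT.flat P hP x, mul_zero,
      zero_add]
    have h1 : ∑ i, ((v.coord (R := ℤ) X.F.amp i : ℤ) : ℝ) * TT.q (X.L i) x ≤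
        (∑ I : J, ∑ i, |(((rep I).coord (R := ℤ) X.F.amp i : ℤ) : ℝ)| * |C i|) *
          ∑ k, ‖x k‖ ^ 2 := by
      have h2 : ∑ i, ((v.coord (R := ℤ) X.F.amp i : ℤ) : ℝ) * TT.q (X.L i) x ≤
          (∑ i, |((v.coord (R := ℤ) X.F.amp i : ℤ) : ℝ)| * |C i|) * ∑ k, ‖x k‖ ^ 2 := by
        rw [Finset.sum_mul]
        refine Finset.sum_le_sum fun i _ => ?_
        calc ((v.coord (R := ℤ) X.F.amp i : ℤ) : ℝ) * TT.q (X.L i) x
            ≤ |((v.coord (R := ℤ) X.F.amp i : ℤ) : ℝ) * TT.q (X.L i) x| := le_abs_self _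
          _ = |((v.coord (R := ℤ) X.F.amp i : ℤ) : ℝ)| * |TT.q (X.L i) x| := abs_mul _ _
          _ ≤ |((v.coord (R := ℤ) X.F.amp i : ℤ) : ℝ)| * (|C i| * ∑ k, ‖x k‖ ^ 2) := by
              gcongr
              refine (hC i x).trans ?_
              gcongr
              exact le_abs_self _
          _ = _ := by ring
      refine h2.trans ?_
      gcongr
      rw [hcoord v]
      exact Finset.single_le_sum (f := fun I : J =>
        ∑ i, |(((rep I).coord (R := ℤ) X.F.amp i : ℤ) : ℝ)| * |C i|)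
        (fun I _ => Finset.sum_nonneg fun i _ => by positivity) (Finset.mem_univ _)
    have h3 : (r : ℝ) * (c * ∑ k, ‖x k‖ ^ 2) ≤ r * TT.q A x :=
      mul_le_mul_of_nonneg_left (hA x) (Nat.cast_nonneg r)
    have h4 : 0 ≤ ∑ k, ‖x k‖ ^ 2 := Finset.sum_nonneg fun k _ => by positivity
    nlinarith
  refine isSemiample_of TT (fun v i => ?_) (fun v x => ?_) fun v => ⟨1, one_pos, ?_⟩
  · rw [hfst]
    exact v.coord_amp_nonneg i
  · exact (Finset.sum_nonneg fun k _ => by positivity).trans (hlow v x)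
  · refine ⟨0, fun u hu => ?_⟩
    have hu' : TT.q _ (X.T.vec u) = 0 := hu
    have h1 := hlow v (X.T.vec u)
    rw [hu'] at h1
    have h2 : X.T.vec u = 0 := by
      have h3 : ∑ k, ‖X.T.vec u k‖ ^ 2 = 0 :=
        le_antisymm h1 (Finset.sum_nonneg fun k _ => by positivity)
      rw [Finset.sum_eq_zero_iff_of_nonneg fun k _ => by positivity] at h3
      ext k
      have := h3 k (Finset.mem_univ k)
      simpa using this
    have h4 : u = 0 := by
      have := X.T.indep (fun i => (u i : ℝ)) (fun k => by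
        have := congrFun h2 k
        simpa [Torus.vec] using this)
      ext i
      exact_mod_cast this i
    subst h4
    unfold ch'
    rw [val_zero]
    simp

theorem Expansion.sec {D : X.LineBundle} {f : (Fin g → ℂ) × (Fin n → ℂ) → ℂ}
    (E : Expansion D f) {χ : Fin n →₀ ℕ} (hχ : χ ∈ E.supp) :
    Sec' (D.2 * (∏ i, X.L i ^ χ i)⁻¹) (E.coef χ) := by
  refine ⟨E.holo χ, fun u z => ?_⟩
  have h1 := E.equivar χ hχ u z
  have h3 : ∏ i, (X.L i).val u z ^ χ i ≠ 0 :=
    Finset.prod_ne_zero_iff.2 fun i _ => pow_ne_zero _ ((X.L i).val_ne_zero u z)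
  rw [Factor.mul_val, Factor.inv_val, Factor.prod_val0]
  simp only [Factor.pow_val0]
  field_simp
  linear_combination h1

/-- The rational span of the differences of exponents. -/
theorem torsion_of_degree_zero {B : X.Boundary} (hB : B.IsKlt)
    (hK : IsPseudoEffective B.logCanonical) (E : Expansion B.bdl B.sec)
    (Z : Set (Fin (2 * g) → ℤ))
    (hZ : ∀ χ ∈ E.supp, TrivOn' (B.bdl.2 * (∏ i, X.L i ^ χ i)⁻¹) Z)
    (μ : Fin n → ℤ) (hμ : ∀ j, ∑ i, μ i * X.F.deg i j = 0) :
    ∃ k : ℕ, 0 < k ∧ TrivOn' ((∏ i, X.L i ^ μ i) ^ k) Z := by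
  classical
  obtain ⟨χ₀, hχ₀⟩ := supp_nonempty E
  let S : Submodule ℚ (Fin n → ℚ) :=
    Submodule.span ℚ ((fun χ : Fin n →₀ ℕ => fun i => (χ i : ℚ) - χ₀ i) '' (E.supp : Set _))
  -- the property is stable
  have hS : ∀ r ∈ S, ∃ k : ℕ, 0 < k ∧ ∃ m : Fin n → ℤ, (∀ i, (m i : ℚ) = k * r i) ∧
      TrivOn' (∏ i, X.L i ^ m i) Z := by
    intro r hr
    induction hr using Submodule.span_induction with
    | mem r hr =>
      obtain ⟨χ, hχ, rfl⟩ := hr
      refine ⟨1, one_pos, fun i => (χ i : ℤ) - χ₀ i, fun i => by push_cast; ring, ?_⟩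
      have h1 := (hZ χ₀ hχ₀).mul (hZ χ hχ).inv
      have h2 : ∏ i, X.L i ^ ((χ i : ℤ) - χ₀ i) = B.bdl.2 * (∏ i, X.L i ^ χ₀ i)⁻¹ *
          (B.bdl.2 * (∏ i, X.L i ^ χ i)⁻¹)⁻¹ := by
        simp only [zpow_sub, zpow_natCast, Finset.prod_mul_distrib, Finset.prod_inv_distrib]
        rw [mul_inv, inv_inv]
        have : ∀ a b c : Factor X.T, b * c⁻¹ = a * c⁻¹ * (a⁻¹ * b) := by
          intro a b c
          rw [mul_comm a c⁻¹, mul_assoc, mul_inv_cancel_left, mul_comm]
        exact this _ _ _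
      rw [h2]
      exact h1
    | zero => exact ⟨1, one_pos, 0, fun i => by simp, by simpa using trivOn_one Z⟩
    | add r r' _ _ ih ih' =>
      obtain ⟨k, hk, m, hm, ht⟩ := ih
      obtain ⟨k', hk', m', hm', ht'⟩ := ih'
      refine ⟨k * k', Nat.mul_pos hk hk', fun i => k' * m i + k * m' i, fun i => ?_, ?_⟩
      · push_cast
        rw [hm, hm', Pi.add_apply]
        ring
      · have h1 := (ht.pow k').mul (ht'.pow k)
        have h2 : ∏ i, X.L i ^ ((k' : ℤ) * m i + k * m' i) =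
            (∏ i, X.L i ^ m i) ^ k' * (∏ i, X.L i ^ m' i) ^ k := by
          rw [← Finset.prod_pow, ← Finset.prod_pow, ← Finset.prod_mul_distrib]
          refine Finset.prod_congr rfl fun i _ => ?_
          rw [zpow_add, mul_comm (k' : ℤ), mul_comm (k : ℤ), zpow_mul, zpow_mul, zpow_natCast,
            zpow_natCast]
        rw [h2]
        exact h1
    | smul a r _ ih =>
      obtain ⟨k, hk, m, hm, ht⟩ := ih
      refine ⟨k * a.den, Nat.mul_pos hk a.den_pos, fun i => a.num * m i, fun i => ?_, ?_⟩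
      · push_cast
        rw [hm, Pi.smul_apply, smul_eq_mul]
        have h1 : (a.num : ℚ) = a * a.den := (Rat.mul_den_eq_num a).symm
        rw [h1]
        ring
      · have h1 := ht.zpow a.num
        have h2 : ∏ i, X.L i ^ (a.num * m i) = (∏ i, X.L i ^ m i) ^ a.num := by
          rw [← Finset.prod_zpow]
          refine Finset.prod_congr rfl fun i _ => ?_
          rw [mul_comm, zpow_mul]
        rw [h2]
        exact h1
  have hmem : (fun i => (μ i : ℚ)) ∈ S := by
    by_contra hnot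
    obtain ⟨φ, hφ1, hφ2⟩ := Submodule.exists_le_ker_of_notMem hnot
    set w : Fin n → ℚ := fun i => φ (Pi.single i 1) with hw
    have hφ : ∀ r : Fin n → ℚ, φ r = ∑ i, w i * r i := by
      intro r
      have h1 : r = ∑ i, r i • (Pi.single i (1 : ℚ) : Fin n → ℚ) := by
        ext j
        simp [Finset.sum_apply, Pi.single_apply]
      conv_lhs => rw [h1]
      rw [map_sum]
      refine Finset.sum_congr rfl fun i _ => ?_
      rw [map_smul, smul_eq_mul, mul_comm]
    have hconst : ∀ χ ∈ E.supp, ∑ i, w i * (χ i : ℚ) = ∑ i, w i * (χ₀ i : ℚ) := by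
      intro χ hχ
      have h1 : (fun i => (χ i : ℚ) - χ₀ i) ∈ S := Submodule.subset_span ⟨χ, hχ, rfl⟩
      have h2 := hφ2 h1
      rw [LinearMap.mem_ker, hφ] at h2
      simp only [mul_sub, Finset.sum_sub_distrib] at h2
      linarith
    obtain ⟨c, hc⟩ := constant_weight hB hK E (fun i => (w i : ℝ)) fun χ hχ χ' hχ' => by
      have h1 := (hconst χ hχ).trans (hconst χ' hχ').symm
      exact_mod_cast h1
    apply hφ1
    rw [hφ]
    have h1 : (∑ i, (w i : ℝ) * (μ i : ℝ)) = 0 := by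
      simp only [hc]
      have h2 : ∑ i, (∑ j, c j * (X.F.deg i j : ℝ)) * (μ i : ℝ) =
          ∑ j, c j * ∑ i, (μ i : ℝ) * X.F.deg i j := by
        simp only [Finset.mul_sum, Finset.sum_mul]
        rw [Finset.sum_comm]
        refine Finset.sum_congr rfl fun j _ => Finset.sum_congr rfl fun i _ => by ring
      rw [h2]
      refine Finset.sum_eq_zero fun j _ => ?_
      have := congrArg (fun x : ℤ => (x : ℝ)) (hμ j)
      push_cast at this
      rw [this, mul_zero]
    exact_mod_cast h1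
  obtain ⟨k, hk, m, hm, ht⟩ := hS _ hmem
  refine ⟨k, hk, ?_⟩
  have h1 : ∀ i, m i = k * μ i := fun i => by exact_mod_cast hm i
  have h2 : (∏ i, X.L i ^ μ i) ^ k = ∏ i, X.L i ^ m i := by
    rw [← Finset.prod_pow]
    refine Finset.prod_congr rfl fun i _ => ?_
    rw [h1, mul_comm, zpow_mul, zpow_natCast]
  rw [h2]
  exact ht

include TT in
/-- The generalised abundance conjecture for toric bundles over abelian varieties. -/
theorem main (B : X.Boundary) (M : X.LineBundle) (hB : B.IsKlt)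
    (hK : IsPseudoEffective B.logCanonical) (hM : IsNef M)
    (hD : IsNef (B.logCanonical * M ^ B.m)) : IsNumSemiample (B.logCanonical * M ^ B.m) := by
  classical
  obtain ⟨E⟩ := exists_expansion B.isSection
  set D : X.LineBundle := B.logCanonical * M ^ B.m with hDdef
  obtain ⟨t, ht⟩ := X.F.nonempty
  obtain ⟨v₀, -⟩ := exists_vertex X.F ht
  have hkey := fun (v : Vertex X.F) (x : Fin g → ℂ) (h : TT.q (rest v D) x = 0) =>
    key TT.toQForm hB E hM hD v x (by rw [← q_rest]; exact h)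
  set Z : Set (Fin (2 * g) → ℤ) := {u | TT.q (rest v₀ D) (X.T.vec u) = 0} with hZdef
  have hZ : ∀ v : Vertex X.F, {u | TT.q (rest v D) (X.T.vec u) = 0} = Z := by
    intro v
    ext u
    constructor
    · intro h
      obtain ⟨c, -, -, h1⟩ := hkey v _ h
      have := h1 v₀
      rw [← q_rest] at this
      exact this
    · intro h
      obtain ⟨c, -, -, h1⟩ := hkey v₀ _ h
      have := h1 v
      rw [← q_rest] at this
      exact this
  have hq : ∀ (v : Vertex X.F) x, 0 ≤ TT.q (rest v D) x := fun v x => by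
    rw [q_rest]
    exact (hD.vertex TT.toQForm v).2 x
  -- the effective line bundles given by the exponents are trivial on `Z`
  have hE : ∀ χ ∈ E.supp, TrivOn' (B.bdl.2 * (∏ i, X.L i ^ χ i)⁻¹) Z := by
    intro χ hχ
    refine (TT.triv _ _ (E.sec hχ) (E.ne_zero χ hχ)).mono fun u hu => ?_
    obtain ⟨c, h1, h2, -⟩ := hkey v₀ _ hu
    change TT.q (B.bdl.2 * (∏ i, X.L i ^ χ i)⁻¹) (X.T.vec u) = 0
    rw [TT.q_mul, TT.q_inv, TT.q_prod]
    simp only [TT.q_pow]
    have h3 : ∑ i, (χ i : ℝ) * TT.q (X.L i) (X.T.vec u) = -∑ j, c j * B.bdl.1.toAdd j := by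
      have h4 : ∀ i, TT.q (X.L i) (X.T.vec u) = -∑ j, c j * X.F.deg i j := fun i => by
        rw [← h1 i]; ring
      simp only [h4, mul_neg, Finset.sum_neg_distrib]
      have h5 : ∑ i, (χ i : ℝ) * ∑ j, c j * (X.F.deg i j : ℝ) =
          ∑ j, c j * ∑ i, (χ i : ℝ) * X.F.deg i j := by
        simp only [Finset.mul_sum]
        rw [Finset.sum_comm]
        refine Finset.sum_congr rfl fun j _ => Finset.sum_congr rfl fun i _ => by ring
      rw [h5]
      congr 1
      refine Finset.sum_congr rfl fun j _ => ?_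
      have := congrArg (fun x : ℤ => (x : ℝ)) (E.degree χ hχ j)
      push_cast at this
      rw [this]
    linarith
  -- the flat twist
  obtain ⟨P, hP, hPch⟩ := TT.ext (rest v₀ D) (hq v₀)
  have hP0 : TrivOn' (rest v₀ D * P) Z := ⟨0, fun u hu => by
    rw [hPch u hu]
    simp⟩
  have hPtriv : ∀ v : Vertex X.F, ∃ k : ℕ, 0 < k ∧ TrivOn' ((rest v D * P) ^ k) Z := by
    intro v
    obtain ⟨k, hk, htk⟩ := torsion_of_degree_zero hB hK E Z hE
      (fun i => v₀.coord (R := ℤ) D.1.toAdd i - v.coord (R := ℤ) D.1.toAdd i) (fun j => by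
        simp only [sub_mul, Finset.sum_sub_distrib]
        have h1 := v₀.deg_coord (R := ℤ) D.1.toAdd j
        have h2 := v.deg_coord (R := ℤ) D.1.toAdd j
        simp only [Int.cast_id] at h1 h2
        rw [h1, h2, sub_self])
    refine ⟨k, hk, ?_⟩
    have h1 : rest v D * P = rest v₀ D * P * ∏ i, X.L i ^
        (v₀.coord (R := ℤ) D.1.toAdd i - v.coord (R := ℤ) D.1.toAdd i) := by
      unfold rest
      simp only [zpow_sub, Finset.prod_mul_distrib, Finset.prod_inv_distrib]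
      have : ∀ a b c p : Factor X.T, a * b⁻¹ * p = a * c⁻¹ * p * (c * b⁻¹) := by
        intro a b c p
        rw [mul_right_comm a c⁻¹ p, mul_assoc (a * p), inv_mul_cancel_left, mul_right_comm]
      exact this _ _ _ _
    rw [h1, mul_pow]
    exact (hP0.pow k).mul htk
  -- the semiample line bundle
  set D₁ : X.LineBundle := D * (1, P) with hD₁
  have hfst : D₁.1.toAdd = D.1.toAdd := by
    rw [hD₁, Prod.fst_mul, mul_one]
  have hrest : ∀ v : Vertex X.F, rest v D₁ = rest v D * P := by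
    intro v
    unfold rest
    rw [hfst, hD₁, Prod.snd_mul]
    exact mul_right_comm _ _ _
  have hqr : ∀ (v : Vertex X.F) x, TT.q (rest v D₁) x = TT.q (rest v D) x := by
    intro v x
    rw [hrest, TT.q_mul, TT.flat P hP, add_zero]
  have hsemi : IsSemiample D₁ := by
    refine isSemiample_of TT (fun v i => ?_) (fun v x => ?_) fun v => ?_
    · rw [hfst]
      exact (hD.vertex TT.toQForm v).1 i
    · rw [hqr]
      exact hq v x
    · obtain ⟨k, hk, h⟩ := hPtriv v
      refine ⟨k, hk, ?_⟩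
      have h1 : {u | TT.q (rest v D₁) (X.T.vec u) = 0} = Z := by
        simp only [hqr]
        exact hZ v
      rw [hrest] at h1 ⊢
      rw [h1]
      exact h
  refine ⟨1, one_pos, D₁, hsemi, ?_, ?_⟩
  · have h1 : D ^ 1 / D₁ = (1, P⁻¹) := by
      rw [pow_one, hD₁, div_mul_cancel_left]
      rfl
    rw [h1]
    exact isNef_flat TT P⁻¹ fun u z => by
      rw [Factor.inv_val, Factor.inv_val, hP u z]
  · have h1 : D₁ / D ^ 1 = (1, P) := by
      rw [pow_one, hD₁, mul_div_cancel_left]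
    rw [h1]
    exact isNef_flat TT P hP

end ToricBundle

end Vale.Agent.P270
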