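import Vale.Agent.P270.Toric.Klt

/-! The key inequalities. `q` stands for the Hermitian quadratic forms of line bundles on `T`. -/

open Filter Topology

namespace Vale.Agent.P270

/-- `f` is a section of the line bundle `N` on the torus. -/
def Sec' {g : ℕ} {T : Torus g} (N : Factor T) (f : (Fin g → ℂ) → ℂ) : Prop :=
  Differentiable ℂ f ∧ ∀ u z, f (z + T.vec u) = N.val u z * f z

/-- The properties of the Hermitian quadratic form of line bundles that are used here. -/
structure QForm {g : ℕ} (T : Torus g) where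
  q : Factor T → (Fin g → ℂ) → ℝ
  q_mul : ∀ N N' x, q (N * N') x = q N x + q N' x
  nonneg : ∀ N f, Sec' N f → (∃ z, f z ≠ 0) → ∀ x, 0 ≤ q N x

namespace QForm

variable {g : ℕ} {T : Torus g} (Q : QForm T)

theorem q_one (x : Fin g → ℂ) : Q.q 1 x = 0 := by
  have := Q.q_mul 1 1 x
  rw [mul_one] at this
  linarith

theorem q_inv (N : Factor T) (x : Fin g → ℂ) : Q.q N⁻¹ x = -Q.q N x := by
  have := Q.q_mul N N⁻¹ x
  rw [mul_inv_cancel, Q.q_one] at this
  linarith

theorem q_pow (N : Factor T) (k : ℕ) (x : Fin g → ℂ) : Q.q (N ^ k) x = k * Q.q N x := by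
  induction k with
  | zero => simp [Q.q_one]
  | succ k ih => rw [pow_succ, Q.q_mul, ih]; push_cast; ring

theorem q_zpow (N : Factor T) (k : ℤ) (x : Fin g → ℂ) : Q.q (N ^ k) x = k * Q.q N x := by
  cases k with
  | ofNat k => simpa using Q.q_pow N k x
  | negSucc k =>
    rw [zpow_negSucc, Q.q_inv, Q.q_pow]
    push_cast
    ring

theorem q_prod {ι : Type*} (S : Finset ι) (N : ι → Factor T) (x : Fin g → ℂ) :
    Q.q (∏ i ∈ S, N i) x = ∑ i ∈ S, Q.q (N i) x := by
  classical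
  induction S using Finset.induction_on with
  | empty => simp [Q.q_one]
  | insert a S ha ih => rw [Finset.prod_insert ha, Finset.sum_insert ha, Q.q_mul, ih]

end QForm

/-- If `k c + h ≥ 0` for all `k > 0` then `c ≥ 0`. -/
theorem nonneg_of_forall_mul_add {c h : ℝ} (H : ∀ k : ℕ, 0 < k → 0 ≤ k * c + h) : 0 ≤ c := by
  by_contra hc
  push Not at hc
  obtain ⟨k, hk⟩ := exists_nat_gt (h / (-c))
  have h1 : 0 < -c := by linarith
  rw [div_lt_iff₀ h1] at hk
  have h2 := H (k + 1) (Nat.succ_pos k)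
  push_cast at h2
  nlinarith

namespace ToricBundle

variable {g n s : ℕ} {X : ToricBundle g n s} (Q : QForm X.T)

@[simp] theorem pow_fst (D : X.LineBundle) (k : ℕ) (j : Fin s) :
    (D ^ k).1.toAdd j = k * D.1.toAdd j := by
  simp [Prod.pow_fst, toAdd_pow]

@[simp] theorem mul_fst (D D' : X.LineBundle) (j : Fin s) :
    (D * D').1.toAdd j = D.1.toAdd j + D'.1.toAdd j := by
  simp [Prod.fst_mul, toAdd_mul]

theorem canonical_fst (j : Fin s) : X.canonical.1.toAdd j = -∑ i, X.F.deg i j := rfl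

theorem canonical_snd : X.canonical.2 = (∏ i, X.L i)⁻¹ := rfl

/-- The exponents of an expansion give effective line bundles on the torus. -/
theorem Expansion.q_nonneg {D : X.LineBundle} {f : (Fin g → ℂ) × (Fin n → ℂ) → ℂ}
    (E : Expansion D f) {χ : Fin n →₀ ℕ} (hχ : χ ∈ E.supp) (x : Fin g → ℂ) :
    0 ≤ Q.q D.2 x - ∑ i, χ i * Q.q (X.L i) x := by
  have h := Q.nonneg (D.2 * (∏ i, X.L i ^ χ i)⁻¹) (E.coef χ) ⟨E.holo χ, fun u z => ?_⟩
    (E.ne_zero χ hχ) x
  · rw [Q.q_mul, Q.q_inv, Q.q_prod] at h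
    simp only [Q.q_pow] at h
    linarith
  · have h1 := E.equivar χ hχ u z
    have h2 : (∏ i, X.L i ^ χ i).val u z = ∏ i, (X.L i).val u z ^ χ i := by
      have h3 : ∀ (N : Factor X.T) (k : ℕ), (N ^ k).val u z = N.val u z ^ k := by
        intro N k
        induction k with
        | zero => simp
        | succ k ih => rw [pow_succ, Factor.mul_val, ih, pow_succ]
      have h4 : ∀ (S : Finset (Fin n)) (N : Fin n → Factor X.T),
          (∏ i ∈ S, N i).val u z = ∏ i ∈ S, (N i).val u z := by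
        classical
        intro S N
        induction S using Finset.induction_on with
        | empty => simp
        | insert a S ha ih => rw [Finset.prod_insert ha, Finset.prod_insert ha, Factor.mul_val, ih]
      rw [h4]
      simp only [h3]
    have h3 : ∏ i, (X.L i).val u z ^ χ i ≠ 0 :=
      Finset.prod_ne_zero_iff.2 fun i _ => pow_ne_zero _ ((X.L i).val_ne_zero u z)
    rw [Factor.mul_val, Factor.inv_val, h2]
    field_simp
    linear_combination h1

/-- The restriction of `D` to the fixed section of `v` has this Hermitian form. -/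
noncomputable def hv (v : Vertex X.F) (D : X.LineBundle) (x : Fin g → ℂ) : ℝ :=
  Q.q D.2 x - ∑ i, ((v.coord D.1.toAdd i : ℤ) : ℝ) * Q.q (X.L i) x

/-- A section which does not vanish on the fixed section of `v`. -/
theorem vertex_section {D : X.LineBundle} {f : (Fin g → ℂ) × (Fin n → ℂ) → ℂ}
    (hf : IsSection D f) (v : Vertex X.F) (z : Fin g → ℂ)
    (hne : f (z, fun i => if i ∈ v.I then 1 else 0) ≠ 0) :
    (∀ i, 0 ≤ v.coord D.1.toAdd i) ∧ ∀ x, 0 ≤ hv Q v D x := by
  obtain ⟨E⟩ := exists_expansion hf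
  rw [E.eval (z, fun i => if i ∈ v.I then 1 else 0) v.stable] at hne
  obtain ⟨χ, hχ, hne'⟩ := Finset.exists_ne_zero_of_sum_ne_zero hne
  have hprod := right_ne_zero_of_mul hne'
  rw [Finset.prod_ne_zero_iff] at hprod
  have h0 : ∀ i, i ∉ v.I → χ i = 0 := by
    intro i hi
    by_contra h
    have := hprod i (Finset.mem_univ i)
    simp [hi, h] at this
  have h1 : (fun i => (χ i : ℤ)) = v.coord (R := ℤ) D.1.toAdd :=
    v.eq_coord (R := ℤ) (fun i => (χ i : ℤ)) (fun i hi => by simp [h0 i hi]) D.1.toAdd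
      (fun j => by simpa using E.degree χ hχ j)
  refine ⟨fun i => ?_, fun x => ?_⟩
  · rw [← congrFun h1 i]
    positivity
  · have h2 := E.q_nonneg Q hχ x
    unfold hv
    simp only [← congrFun h1]
    simpa using h2

/-- The numerical consequences of nefness at a fixed point. -/
theorem IsNef.vertex {D : X.LineBundle} (hD : IsNef D) (v : Vertex X.F) :
    (∀ i, 0 ≤ v.coord D.1.toAdd i) ∧ ∀ x, 0 ≤ hv Q v D x := by
  obtain ⟨H, hH⟩ := hD
  have key : ∀ k : ℕ, 0 < k → (∀ i, 0 ≤ k * v.coord D.1.toAdd i + v.coord H.1.toAdd i) ∧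
      ∀ x, 0 ≤ k * hv Q v D x + hv Q v H x := by
    intro k hk
    obtain ⟨l, hl, hgg⟩ := hH k hk
    obtain ⟨f, hf, hne⟩ := hgg ((0 : Fin g → ℂ), fun i => if i ∈ v.I then 1 else 0) v.stable
    obtain ⟨h1, h2⟩ := vertex_section Q hf v 0 hne
    have hc : ∀ i, v.coord ((D ^ k * H) ^ l).1.toAdd i =
        l * (k * v.coord D.1.toAdd i + v.coord H.1.toAdd i) := by
      intro i
      unfold Vertex.coord
      simp only [pow_fst, mul_fst, Finset.mul_sum, mul_add, ← Finset.sum_add_distrib]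
      refine Finset.sum_congr rfl fun j _ => by push_cast; ring
    have hlpos : (0 : ℤ) < l := by exact_mod_cast hl
    have hlpos' : (0 : ℝ) < l := by exact_mod_cast hl
    refine ⟨fun i => ?_, fun x => ?_⟩
    · have := h1 i
      rw [hc] at this
      exact nonneg_of_mul_nonneg_right this hlpos
    · have := h2 x
      have h3 : hv Q v ((D ^ k * H) ^ l) x = l * (k * hv Q v D x + hv Q v H x) := by
        unfold hv
        simp only [hc]
        simp only [Prod.pow_snd, Prod.snd_mul, Q.q_pow, Q.q_mul]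
        push_cast
        have : ∑ i, (l : ℝ) * (k * ((v.coord D.1.toAdd i : ℤ) : ℝ) + ((v.coord H.1.toAdd i : ℤ) : ℝ)) *
            Q.q (X.L i) x = l * (k * ∑ i, ((v.coord D.1.toAdd i : ℤ) : ℝ) * Q.q (X.L i) x +
              ∑ i, ((v.coord H.1.toAdd i : ℤ) : ℝ) * Q.q (X.L i) x) := by
          simp only [Finset.mul_sum, ← Finset.sum_add_distrib]
          refine Finset.sum_congr rfl fun i _ => by ring
        rw [this]
        ring
      rw [h3] at this
      exact nonneg_of_mul_nonneg_right this hlpos'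
  refine ⟨fun i => ?_, fun x => nonneg_of_forall_mul_add fun k hk => (key k hk).2 x⟩
  have h1 : (0 : ℝ) ≤ (v.coord D.1.toAdd i : ℤ) :=
    nonneg_of_forall_mul_add (h := (v.coord H.1.toAdd i : ℤ)) fun k hk => by
      exact_mod_cast (key k hk).1 i
  exact_mod_cast h1

/-- Pseudo-effectivity on the fibres. -/
theorem IsPseudoEffective.degree {D : X.LineBundle} (hD : IsPseudoEffective D) (c : Fin s → ℝ)
    (hc : ∀ i, 0 ≤ ∑ j, c j * X.F.deg i j) : 0 ≤ ∑ j, c j * D.1.toAdd j := by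
  obtain ⟨H, hH⟩ := hD
  refine nonneg_of_forall_mul_add (h := ∑ j, c j * H.1.toAdd j) fun k hk => ?_
  obtain ⟨l, hl, f, hf, y, hy, hne⟩ := hH k hk
  obtain ⟨E⟩ := exists_expansion hf
  rw [E.eval y hy] at hne
  obtain ⟨χ, hχ, -⟩ := Finset.exists_ne_zero_of_sum_ne_zero hne
  have h1 := E.degree χ hχ
  have h2 : ∀ j, ∑ i, (χ i : ℝ) * X.F.deg i j = l * (k * D.1.toAdd j + H.1.toAdd j) := by
    intro j
    have := congrArg (fun x : ℤ => (x : ℝ)) (h1 j)
    simp only [pow_fst, mul_fst] at this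
    push_cast at this
    exact this
  have h3 : (l : ℝ) * (k * ∑ j, c j * D.1.toAdd j + ∑ j, c j * H.1.toAdd j) =
      ∑ i, (χ i : ℝ) * ∑ j, c j * X.F.deg i j := by
    have : ∑ i, (χ i : ℝ) * ∑ j, c j * X.F.deg i j =
        ∑ j, c j * ∑ i, (χ i : ℝ) * X.F.deg i j := by
      simp only [Finset.mul_sum]
      rw [Finset.sum_comm]
      refine Finset.sum_congr rfl fun j _ => Finset.sum_congr rfl fun i _ => by ring
    rw [this]
    simp only [h2, Finset.mul_sum, mul_add, ← Finset.sum_add_distrib]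
    refine Finset.sum_congr rfl fun j _ => by ring
  have h4 : 0 ≤ (l : ℝ) * (k * ∑ j, c j * D.1.toAdd j + ∑ j, c j * H.1.toAdd j) := by
    rw [h3]
    exact Finset.sum_nonneg fun i _ => mul_nonneg (Nat.cast_nonneg _) (hc i)
  exact nonneg_of_mul_nonneg_right h4 (by exact_mod_cast hl)

theorem logCanonical_fst (B : X.Boundary) (j : Fin s) :
    B.logCanonical.1.toAdd j = -(B.m * ∑ i, X.F.deg i j) + B.bdl.1.toAdd j := by
  unfold Boundary.logCanonical
  rw [mul_fst, pow_fst, canonical_fst]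
  ring

theorem supp_nonempty {B : X.Boundary} (E : Expansion B.bdl B.sec) : E.supp.Nonempty := by
  obtain ⟨y, hy, hne⟩ := B.ne_zero
  rw [E.eval y hy] at hne
  obtain ⟨χ, hχ, -⟩ := Finset.exists_ne_zero_of_sum_ne_zero hne
  exact ⟨χ, hχ⟩

theorem isStable_of_vertex {v : Vertex X.F} {w : Fin n → ℝ} (h : ∀ i ∈ v.I, w i = 0) :
    IsStable X.F.deg X.F.amp fun i => if w i = 0 then 1 else 0 := by
  refine v.stable.mono fun i hi => ?_
  by_contra h'
  have hiI : i ∈ v.I := by
    by_contra h''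
    simp [h''] at h'
  simp [h i hiI] at hi

/-- A weight which is constant on the exponents of `σ` is trivial. -/
theorem constant_weight {B : X.Boundary} (hB : B.IsKlt) (hK : IsPseudoEffective B.logCanonical)
    (E : Expansion B.bdl B.sec) (w : Fin n → ℝ)
    (hw : ∀ χ ∈ E.supp, ∀ χ' ∈ E.supp, ∑ i, w i * χ i = ∑ i, w i * χ' i) :
    ∃ c : Fin s → ℝ, ∀ i, w i = ∑ j, c j * X.F.deg i j := by
  classical
  obtain ⟨χ₀, hχ₀⟩ := supp_nonempty E
  obtain ⟨c, v, hc1, hc2⟩ := exists_normalise X.F w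
  obtain ⟨c', v', hc1', hc2'⟩ := exists_normalise X.F (fun i => -w i)
  set w₁ : Fin n → ℝ := fun i => w i - ∑ j, c j * X.F.deg i j with hw₁
  set w₂ : Fin n → ℝ := fun i => -w i - ∑ j, c' j * X.F.deg i j with hw₂
  have hw₁0 : ∀ i, 0 ≤ w₁ i := fun i => sub_nonneg.2 (hc1 i)
  have hw₂0 : ∀ i, 0 ≤ w₂ i := fun i => sub_nonneg.2 (hc1' i)
  have hst₁ := isStable_of_vertex (X := X) (v := v) (w := w₁) fun i hi => sub_eq_zero.2 (hc2 i hi)
  have hst₂ := isStable_of_vertex (X := X) (v := v') (w := w₂) fun i hi => sub_eq_zero.2 (hc2' i hi)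
  -- the pairing of an exponent with a character
  have hpair : ∀ (c : Fin s → ℝ), ∀ χ ∈ E.supp, ∑ i, (∑ j, c j * X.F.deg i j) * (χ i : ℝ) =
      ∑ j, c j * B.bdl.1.toAdd j := by
    intro c χ hχ
    have h1 : ∑ i, (∑ j, c j * X.F.deg i j) * (χ i : ℝ) =
        ∑ j, c j * ∑ i, (χ i : ℝ) * X.F.deg i j := by
      simp only [Finset.mul_sum, Finset.sum_mul]
      rw [Finset.sum_comm]
      refine Finset.sum_congr rfl fun j _ => Finset.sum_congr rfl fun i _ => by ring
    rw [h1]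
    refine Finset.sum_congr rfl fun j _ => ?_
    have := congrArg (fun x : ℤ => (x : ℝ)) (E.degree χ hχ j)
    push_cast at this
    rw [this]
  by_cases hz : ∃ i, w₁ i ≠ 0 ∨ w₂ i ≠ 0
  · exfalso
    -- the sum of the two klt inequalities
    have hk₁ : ∑ i, w₁ i * χ₀ i ≤ B.m * ∑ i, w₁ i ∧ ((∃ i, w₁ i ≠ 0) →
        ∑ i, w₁ i * χ₀ i < B.m * ∑ i, w₁ i) := by
      have hlt : (∃ i, w₁ i ≠ 0) → ∑ i, w₁ i * χ₀ i < B.m * ∑ i, w₁ i := by
        intro h
        obtain ⟨χ, hχ, h1⟩ := klt_ineq hB E w₁ hw₁0 h hst₁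
        have h2 : ∑ i, w₁ i * χ₀ i = ∑ i, w₁ i * χ i := by
          simp only [hw₁, sub_mul, Finset.sum_sub_distrib]
          rw [hw χ₀ hχ₀ χ hχ, hpair c χ₀ hχ₀, hpair c χ hχ]
        rw [h2]
        exact h1
      refine ⟨?_, hlt⟩
      by_cases h : ∃ i, w₁ i ≠ 0
      · exact (hlt h).le
      · push Not at h
        simp [h]
    have hk₂ : ∑ i, w₂ i * χ₀ i ≤ B.m * ∑ i, w₂ i ∧ ((∃ i, w₂ i ≠ 0) →
        ∑ i, w₂ i * χ₀ i < B.m * ∑ i, w₂ i) := by
      have hlt : (∃ i, w₂ i ≠ 0) → ∑ i, w₂ i * χ₀ i < B.m * ∑ i, w₂ i := by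
        intro h
        obtain ⟨χ, hχ, h1⟩ := klt_ineq hB E w₂ hw₂0 h hst₂
        have h2 : ∑ i, w₂ i * χ₀ i = ∑ i, w₂ i * χ i := by
          simp only [hw₂, sub_mul, Finset.sum_sub_distrib, neg_mul, Finset.sum_neg_distrib]
          rw [hw χ₀ hχ₀ χ hχ, hpair c' χ₀ hχ₀, hpair c' χ hχ]
        rw [h2]
        exact h1
      refine ⟨?_, hlt⟩
      by_cases h : ∃ i, w₂ i ≠ 0
      · exact (hlt h).le
      · push Not at h
        simp [h]
    have hsum : ∑ i, w₁ i * χ₀ i + ∑ i, w₂ i * χ₀ i < B.m * ∑ i, w₁ i + B.m * ∑ i, w₂ i := by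
      obtain ⟨i, hi | hi⟩ := hz
      · have := hk₁.2 ⟨i, hi⟩
        linarith [hk₂.1]
      · have := hk₂.2 ⟨i, hi⟩
        linarith [hk₁.1]
    -- the character `-(c + c')` is nonnegative on all degrees
    have hpos := hK.degree (fun j => -(c j + c' j)) (fun i => by
      have h1 := hw₁0 i
      have h2 := hw₂0 i
      simp only [hw₁, hw₂] at h1 h2
      simp only [neg_mul, add_mul, Finset.sum_neg_distrib, Finset.sum_add_distrib]
      linarith)
    have h3 : ∑ i, w₁ i * χ₀ i + ∑ i, w₂ i * χ₀ i =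
        ∑ j, -(c j + c' j) * B.bdl.1.toAdd j := by
      simp only [hw₁, hw₂, sub_mul, Finset.sum_sub_distrib, neg_mul, Finset.sum_neg_distrib]
      rw [hpair c χ₀ hχ₀, hpair c' χ₀ hχ₀]
      simp only [add_mul, Finset.sum_add_distrib]
      ring
    have h4 : ∑ i, w₁ i + ∑ i, w₂ i = ∑ j, -(c j + c' j) * ∑ i, (X.F.deg i j : ℝ) := by
      simp only [hw₁, hw₂, Finset.sum_sub_distrib, Finset.sum_neg_distrib, Finset.mul_sum]
      rw [Finset.sum_comm (f := fun j i => -(c j + c' j) * (X.F.deg i j : ℝ))]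
      simp only [neg_mul, add_mul, Finset.sum_neg_distrib, Finset.sum_add_distrib]
      ring
    have h5 : ∑ j, -(c j + c' j) * ((B.logCanonical.1.toAdd j : ℤ) : ℝ) =
        ∑ j, -(c j + c' j) * B.bdl.1.toAdd j -
          B.m * ∑ j, -(c j + c' j) * ∑ i, (X.F.deg i j : ℝ) := by
      rw [Finset.mul_sum, ← Finset.sum_sub_distrib]
      refine Finset.sum_congr rfl fun j _ => ?_
      rw [logCanonical_fst]
      push_cast
      ring
    rw [h5, ← h4, ← h3] at hpos
    linarith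
  · push Not at hz
    refine ⟨c, fun i => ?_⟩
    have := (hz i).1
    simp only [hw₁] at this
    linarith

/-- Pairing of a character with the coordinates of `D` at a fixed point. -/
theorem pair_coord (v : Vertex X.F) (a : Fin s → ℤ) (c : Fin s → ℝ) :
    ∑ i, ((v.coord a i : ℤ) : ℝ) * ∑ j, c j * X.F.deg i j = ∑ j, c j * (a j : ℝ) := by
  have h1 : ∑ i, ((v.coord a i : ℤ) : ℝ) * ∑ j, c j * X.F.deg i j =
      ∑ j, c j * ∑ i, ((v.coord a i : ℤ) : ℝ) * X.F.deg i j := by
    simp only [Finset.mul_sum]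
    rw [Finset.sum_comm]
    refine Finset.sum_congr rfl fun j _ => Finset.sum_congr rfl fun i _ => by ring
  rw [h1]
  refine Finset.sum_congr rfl fun j _ => ?_
  have h2 := congrArg (fun x : ℤ => (x : ℝ)) (v.deg_coord (R := ℤ) a j)
  push_cast at h2
  rw [← h2]

theorem logCanonical_snd (B : X.Boundary) :
    B.logCanonical.2 = ((∏ i, X.L i)⁻¹) ^ B.m * B.bdl.2 := rfl

/-- The key lemma: if the Hermitian form of `D` at a fixed point vanishes at `x`, then so do all
the others, the weights `q (L i) x` come from a character, and all effective line bundles given by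
the exponents of `σ` vanish at `x`. -/
theorem key {B : X.Boundary} (hB : B.IsKlt) (E : Expansion B.bdl B.sec) {M : X.LineBundle}
    (hM : IsNef M) (hD : IsNef (B.logCanonical * M ^ B.m)) (v : Vertex X.F) (x : Fin g → ℂ)
    (h0 : hv Q v (B.logCanonical * M ^ B.m) x = 0) :
    ∃ c : Fin s → ℝ, (∀ i, -Q.q (X.L i) x = ∑ j, c j * X.F.deg i j) ∧
      Q.q B.bdl.2 x + ∑ j, c j * B.bdl.1.toAdd j = 0 ∧
      ∀ v', hv Q v' (B.logCanonical * M ^ B.m) x = 0 := by
  classical
  set D : X.LineBundle := B.logCanonical * M ^ B.m with hDdef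
  obtain ⟨c, J, hc1, hc2⟩ := exists_normalise X.F fun i => -Q.q (X.L i) x
  set w : Fin n → ℝ := fun i => -Q.q (X.L i) x - ∑ j, c j * X.F.deg i j with hw
  have hw0 : ∀ i, 0 ≤ w i := fun i => sub_nonneg.2 (hc1 i)
  have hwJ : ∀ i ∈ J.I, w i = 0 := fun i hi => sub_eq_zero.2 (hc2 i hi)
  have hst := isStable_of_vertex (X := X) (v := J) (w := w) hwJ
  -- the form at a vertex
  have hform : ∀ (v : Vertex X.F) (A : X.LineBundle), hv Q v A x =
      Q.q A.2 x + ∑ j, c j * (A.1.toAdd j : ℝ) + ∑ i, ((v.coord A.1.toAdd i : ℤ) : ℝ) * w i := by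
    intro v A
    unfold hv
    simp only [hw, mul_sub, Finset.sum_sub_distrib, mul_neg, Finset.sum_neg_distrib]
    rw [pair_coord]
    ring
  have hJ : ∀ A : X.LineBundle, ∑ i, ((J.coord A.1.toAdd i : ℤ) : ℝ) * w i = 0 := by
    intro A
    refine Finset.sum_eq_zero fun i _ => ?_
    by_cases hi : i ∈ J.I
    · rw [hwJ i hi, mul_zero]
    · rw [J.coord_zero _ i hi]
      simp
  have hDv : ∀ v : Vertex X.F, 0 ≤ ∑ i, ((v.coord D.1.toAdd i : ℤ) : ℝ) * w i := fun v =>
    Finset.sum_nonneg fun i _ => mul_nonneg (by exact_mod_cast (hD.vertex Q v).1 i) (hw0 i)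
  have hDJ := (hD.vertex Q J).2 x
  rw [hform, hJ, add_zero] at hDJ
  have hMJ := (hM.vertex Q J).2 x
  rw [hform, hJ, add_zero] at hMJ
  rw [hform] at h0
  have h1 : Q.q D.2 x + ∑ j, c j * (D.1.toAdd j : ℝ) = 0 := by
    have := hDv v
    linarith
  -- expand `D`
  have h2 : Q.q D.2 x + ∑ j, c j * (D.1.toAdd j : ℝ) =
      B.m * ∑ i, w i + (Q.q B.bdl.2 x + ∑ j, c j * (B.bdl.1.toAdd j : ℝ)) +
        B.m * (Q.q M.2 x + ∑ j, c j * (M.1.toAdd j : ℝ)) := by
    have h3 : Q.q D.2 x = -(B.m * ∑ i, Q.q (X.L i) x) + Q.q B.bdl.2 x + B.m * Q.q M.2 x := by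
      rw [hDdef, Prod.snd_mul, Prod.pow_snd, Q.q_mul, Q.q_pow, logCanonical_snd, Q.q_mul, Q.q_pow,
        Q.q_inv, Q.q_prod]
      ring
    have h4 : ∑ j, c j * (D.1.toAdd j : ℝ) = -(B.m * ∑ i, ∑ j, c j * X.F.deg i j) +
        ∑ j, c j * (B.bdl.1.toAdd j : ℝ) + B.m * ∑ j, c j * (M.1.toAdd j : ℝ) := by
      rw [Finset.sum_comm (f := fun i j => c j * (X.F.deg i j : ℝ))]
      simp only [Finset.mul_sum, ← Finset.sum_neg_distrib, ← Finset.sum_add_distrib]
      refine Finset.sum_congr rfl fun j _ => ?_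
      rw [hDdef, mul_fst, pow_fst, logCanonical_fst]
      push_cast
      have h5 : ∑ i, -((B.m : ℝ) * (c j * (X.F.deg i j : ℝ))) =
          -(B.m * (c j * ∑ i, (X.F.deg i j : ℝ))) := by
        simp only [Finset.mul_sum, Finset.sum_neg_distrib]
      rw [h5]
      ring
    rw [h3, h4]
    simp only [hw, Finset.sum_sub_distrib, Finset.sum_neg_distrib]
    ring
  -- the effective line bundles
  have heff : ∀ χ ∈ E.supp, 0 ≤ Q.q B.bdl.2 x + ∑ j, c j * (B.bdl.1.toAdd j : ℝ) +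
      ∑ i, w i * χ i := by
    intro χ hχ
    have h3 := E.q_nonneg Q hχ x
    have h4 : ∑ i, (∑ j, c j * X.F.deg i j) * (χ i : ℝ) = ∑ j, c j * B.bdl.1.toAdd j := by
      have h5 : ∑ i, (∑ j, c j * X.F.deg i j) * (χ i : ℝ) =
          ∑ j, c j * ∑ i, (χ i : ℝ) * X.F.deg i j := by
        simp only [Finset.mul_sum, Finset.sum_mul]
        rw [Finset.sum_comm]
        refine Finset.sum_congr rfl fun j _ => Finset.sum_congr rfl fun i _ => by ring
      rw [h5]
      refine Finset.sum_congr rfl fun j _ => ?_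
      have := congrArg (fun x : ℤ => (x : ℝ)) (E.degree χ hχ j)
      push_cast at this
      rw [this]
    have h6 : ∑ i, w i * (χ i : ℝ) = -∑ i, (χ i : ℝ) * Q.q (X.L i) x -
        ∑ j, c j * (B.bdl.1.toAdd j : ℝ) := by
      rw [← h4]
      simp only [hw, sub_mul, Finset.sum_sub_distrib, neg_mul, Finset.sum_neg_distrib]
      congr 2
      refine Finset.sum_congr rfl fun i _ => by ring
    rw [h6]
    linarith
  obtain ⟨χ₀, hχ₀⟩ := supp_nonempty E
  have hmpos : (0 : ℝ) < B.m := by exact_mod_cast B.m_pos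
  have hM0 : 0 ≤ (B.m : ℝ) * (Q.q M.2 x + ∑ j, c j * (M.1.toAdd j : ℝ)) :=
    mul_nonneg hmpos.le hMJ
  have hwz : ∀ i, w i = 0 := by
    by_contra hne
    push Not at hne
    obtain ⟨χ, hχ, h3⟩ := klt_ineq hB E w hw0 hne hst
    have := heff χ hχ
    linarith
  have hws : ∑ i, w i = 0 := by simp [hwz]
  have hwχ : ∑ i, w i * (χ₀ i : ℝ) = 0 := by simp [hwz]
  have h3 := heff χ₀ hχ₀
  rw [hwχ, add_zero] at h3
  rw [hws, mul_zero, zero_add] at h2
  refine ⟨c, fun i => ?_, by linarith, fun v' => ?_⟩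
  · have := hwz i
    simp only [hw] at this
    linarith
  · rw [hform, h1, zero_add]
    exact Finset.sum_eq_zero fun i _ => by rw [hwz i, mul_zero]

end ToricBundle

end Vale.Agent.P270
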