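import Vale.Agent.P270.Toric.Expand

/-! The klt condition, tested on polydiscs of monomial shape. -/

open MeasureTheory Filter Topology
open scoped ENNReal

namespace Vale.Agent.P270

namespace ToricBundle

variable {g n s : ℕ} {X : ToricBundle g n s}

/-- The test polydiscs. -/
def QQ (g : ℕ) {n : ℕ} (w : Fin n → ℝ) (ρ : ℝ) (N : ℕ) : Set ((Fin g → ℂ) × (Fin n → ℂ)) :=
  open Classical in
  (Set.univ.pi fun _ : Fin g => Metric.closedBall (0 : ℂ) ρ) ×ˢ
    (Set.univ.pi fun i => if w i = 0 then Metric.closedBall (1 : ℂ) ρ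
      else Metric.closedBall 0 (ρ * (1 / 2 : ℝ) ^ (N * w i)))

theorem measurableSet_QQ (w : Fin n → ℝ) (ρ : ℝ) (N : ℕ) : MeasurableSet (QQ g w ρ N) := by
  classical
  refine MeasurableSet.prod (MeasurableSet.univ_pi fun _ => measurableSet_closedBall)
    (MeasurableSet.univ_pi fun i => ?_)
  split_ifs <;> exact measurableSet_closedBall

theorem volume_QQ (w : Fin n → ℝ) {ρ : ℝ} (hρ : 0 < ρ) : ∃ C : ℝ, 0 < C ∧ ∀ N : ℕ,
    volume (QQ g w ρ N) = ENNReal.ofReal (C * (1 / 2 : ℝ) ^ (2 * N * ∑ i, w i)) := by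
  classical
  refine ⟨(ρ ^ 2 * Real.pi) ^ g * (ρ ^ 2 * Real.pi) ^ n, by positivity, fun N => ?_⟩
  have hball : ∀ (a : ℂ) (ρ : ℝ), 0 ≤ ρ →
      volume (Metric.closedBall a ρ) = ENNReal.ofReal (ρ ^ 2 * Real.pi) := by
    intro a ρ hρ
    rw [Complex.volume_closedBall, ENNReal.ofReal_mul (by positivity), ENNReal.ofReal_pow hρ]
    congr 1
    rw [← NNReal.coe_real_pi, ENNReal.ofReal_coe_nnreal]
  unfold QQ
  rw [Measure.volume_eq_prod, Measure.prod_prod, volume_pi_pi, volume_pi_pi]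
  have h1 : ∏ _i : Fin g, volume (Metric.closedBall (0 : ℂ) ρ) =
      ENNReal.ofReal ((ρ ^ 2 * Real.pi) ^ g) := by
    rw [hball _ _ hρ.le]
    simp only [Finset.prod_const, Finset.card_univ, Fintype.card_fin]
    rw [ENNReal.ofReal_pow (by positivity)]
  have h2 : ∏ i : Fin n, volume (if w i = 0 then Metric.closedBall (1 : ℂ) ρ
      else Metric.closedBall 0 (ρ * (1 / 2 : ℝ) ^ (N * w i)))
      = ENNReal.ofReal ((ρ ^ 2 * Real.pi) ^ n * (1 / 2 : ℝ) ^ (2 * N * ∑ i, w i)) := by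
    have h3 : ∀ i : Fin n, volume (if w i = 0 then Metric.closedBall (1 : ℂ) ρ
      else Metric.closedBall 0 (ρ * (1 / 2 : ℝ) ^ (N * w i)))
      = ENNReal.ofReal ((ρ ^ 2 * Real.pi) * (1 / 2 : ℝ) ^ (2 * N * w i)) := by
      intro i
      split_ifs with h
      · rw [hball _ _ hρ.le, h, mul_zero, Real.rpow_zero, mul_one]
      · rw [hball _ _ (by positivity)]
        congr 1
        rw [mul_pow, ← Real.rpow_natCast ((1 / 2 : ℝ) ^ (N * w i)), ← Real.rpow_mul (by norm_num)]
        have : (N : ℝ) * w i * ((2 : ℕ) : ℝ) = 2 * N * w i := by push_cast; ring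
        rw [this]
        ring
    rw [Finset.prod_congr rfl fun i _ => h3 i, ← ENNReal.ofReal_prod_of_nonneg]
    · congr 1
      rw [Finset.prod_mul_distrib, Finset.prod_const, Finset.card_univ, Fintype.card_fin,
        ← Real.rpow_sum_of_pos (by norm_num), ← Finset.mul_sum]
    · intro i _
      positivity
  rw [h1, h2, ← ENNReal.ofReal_mul (by positivity)]
  congr 1
  ring

/-- The klt inequality for the toric valuation with weights `w`. -/
theorem klt_ineq {B : X.Boundary} (hB : B.IsKlt) (E : Expansion B.bdl B.sec) (w : Fin n → ℝ)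
    (hw : ∀ i, 0 ≤ w i) (hne : ∃ i, w i ≠ 0)
    (hst : IsStable X.F.deg X.F.amp fun i => if w i = 0 then 1 else 0) :
    ∃ χ ∈ E.supp, ∑ i, w i * χ i < B.m * ∑ i, w i := by
  classical
  by_contra hcon
  push Not at hcon
  set W := ∑ i, w i with hW
  set m : ℝ := (B.m : ℝ) with hm
  have hmpos : 0 < m := by rw [hm]; exact_mod_cast B.m_pos
  have hWpos : 0 < W := by
    obtain ⟨i, hi⟩ := hne
    exact Finset.sum_pos' (fun i _ => hw i) ⟨i, Finset.mem_univ i, lt_of_le_of_ne (hw i) (Ne.symm hi)⟩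
  set a : ℝ := 2 / m with ha
  have ha0 : 0 < a := by positivity
  have haW : a * (m * W) = 2 * W := by
    rw [ha]
    field_simp
  -- the centre and the neighbourhood
  let t₀ : Fin n → ℂ := fun i => if w i = 0 then 1 else 0
  obtain ⟨U, hU, hUfin⟩ := hB ((0 : Fin g → ℂ), t₀) hst
  obtain ⟨ρ', hρ', hball⟩ := Metric.nhds_basis_closedBall.mem_iff.1 hU
  set ρ : ℝ := min ρ' 1 with hρdef
  have hρ : 0 < ρ := lt_min hρ' one_pos
  have hρ1 : ρ ≤ 1 := min_le_right _ _
  have hδ : ∀ (N : ℕ) i, (1 / 2 : ℝ) ^ (N * w i) ≤ 1 := by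
    intro N i
    exact Real.rpow_le_one (by norm_num) (by norm_num) (mul_nonneg (Nat.cast_nonneg N) (hw i))
  have hQU : ∀ N, QQ g w ρ N ⊆ U := by
    intro N y hy
    apply hball
    obtain ⟨h1, h2⟩ := hy
    rw [Metric.mem_closedBall, Prod.dist_eq, max_le_iff]
    constructor
    · rw [dist_pi_le_iff hρ'.le]
      intro k
      have := h1 k (Set.mem_univ k)
      rw [Metric.mem_closedBall] at this
      exact this.trans (min_le_left _ _)
    · rw [dist_pi_le_iff hρ'.le]
      intro i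
      have := h2 i (Set.mem_univ i)
      beta_reduce at this
      simp only [t₀]
      split_ifs at this ⊢ with h
      · rw [Metric.mem_closedBall] at this
        exact this.trans (min_le_left _ _)
      · rw [Metric.mem_closedBall] at this
        refine this.trans ?_
        calc ρ * (1 / 2 : ℝ) ^ (N * w i) ≤ ρ * 1 := by gcongr; exact hδ N i
          _ = ρ := mul_one _
          _ ≤ ρ' := min_le_left _ _
  obtain ⟨C, hC, hvol⟩ := volume_QQ (g := g) w hρ
  -- the points of the test sets are stable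
  have hQdom : ∀ N, QQ g w (ρ / 2) N ⊆ X.dom := by
    intro N y hy
    refine hst.mono fun i hi => ?_
    have := hy.2 i (Set.mem_univ i)
    beta_reduce at this
    by_contra h
    have hwi : w i = 0 := by
      by_contra h'
      simp [h'] at h
    rw [if_pos hwi, hi, Metric.mem_closedBall, dist_eq_norm, zero_sub, norm_neg, norm_one] at this
    linarith
  obtain ⟨C', hC', hvol'⟩ := volume_QQ (g := g) w (ρ := ρ / 2) (by positivity)
  have hQQ : ∀ N, QQ g w (ρ / 2) N ⊆ QQ g w ρ N := by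
    intro N
    refine Set.prod_mono (Set.pi_mono fun _ _ => Metric.closedBall_subset_closedBall (by linarith))
      (Set.pi_mono fun i _ => ?_)
    split_ifs
    · exact Metric.closedBall_subset_closedBall (by linarith)
    · refine Metric.closedBall_subset_closedBall ?_
      gcongr
      linarith
  have hQU' : ∀ N, QQ g w (ρ / 2) N ⊆ U := fun N => (hQQ N).trans (hQU N)
  -- bound for the coefficients
  obtain ⟨M, hM⟩ : ∃ M : (Fin n →₀ ℕ) → ℝ, ∀ χ,
      ∀ z ∈ (Set.univ.pi fun _ : Fin g => Metric.closedBall (0 : ℂ) 1), ‖E.coef χ z‖ ≤ M χ := by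
    have hcpt : IsCompact (Set.univ.pi fun _ : Fin g => Metric.closedBall (0 : ℂ) 1) :=
      isCompact_univ_pi fun _ => isCompact_closedBall _ _
    have : ∀ χ, ∃ M : ℝ, ∀ z ∈ (Set.univ.pi fun _ : Fin g =>
        Metric.closedBall (0 : ℂ) 1), ‖E.coef χ z‖ ≤ M := fun χ =>
      hcpt.exists_bound_of_continuousOn (E.holo χ).continuous.continuousOn
    choose M hM using this
    exact ⟨M, hM⟩
  let K : ℝ := (∑ χ ∈ E.supp, |M χ| * 2 ^ (∑ i, χ i)) + 1
  have hK : 0 < K := by
    have : 0 ≤ ∑ χ ∈ E.supp, |M χ| * (2 : ℝ) ^ (∑ i, χ i) :=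
      Finset.sum_nonneg fun _ _ => by positivity
    simp only [K]
    linarith
  have hsec : ∀ N : ℕ, ∀ y ∈ QQ g w (ρ / 2) N,
      ‖B.sec y‖ ≤ K * (1 / 2 : ℝ) ^ (N * (m * W)) := by
    intro N y hy
    have hz : y.1 ∈ Set.univ.pi fun _ : Fin g => Metric.closedBall (0 : ℂ) 1 := by
      intro k _
      have := hy.1 k (Set.mem_univ k)
      rw [Metric.mem_closedBall] at this ⊢
      linarith
    have ht' : ∀ i, ‖y.2 i‖ ≤ 2 * (1 / 2 : ℝ) ^ (N * w i) := by
      intro i
      have h1 := hy.2 i (Set.mem_univ i)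
      simp only at h1
      split_ifs at h1 with h
      · rw [h, mul_zero, Real.rpow_zero, mul_one]
        rw [Metric.mem_closedBall, dist_eq_norm] at h1
        calc ‖y.2 i‖ = ‖(y.2 i - 1) + 1‖ := by ring_nf
          _ ≤ ‖y.2 i - 1‖ + ‖(1 : ℂ)‖ := norm_add_le _ _
          _ ≤ 1 + 1 := by
            rw [norm_one]
            linarith
          _ = 2 := by norm_num
      · rw [mem_closedBall_zero_iff] at h1
        refine h1.trans ?_
        gcongr
        linarith
    have hterm : ∀ χ ∈ E.supp, ‖E.coef χ y.1 * ∏ i, y.2 i ^ χ i‖ ≤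
        |M χ| * 2 ^ (∑ i, χ i) * (1 / 2 : ℝ) ^ (N * (m * W)) := by
      intro χ hχ
      have h1 := hcon χ hχ
      rw [norm_mul, norm_prod]
      have h2 : ∏ i, ‖y.2 i ^ χ i‖ ≤ ∏ i, (2 * (1 / 2 : ℝ) ^ (N * w i)) ^ χ i := by
        refine Finset.prod_le_prod (fun i _ => norm_nonneg _) fun i _ => ?_
        rw [norm_pow]
        exact pow_le_pow_left₀ (norm_nonneg _) (ht' i) _
      have h3 : ∏ i, (2 * (1 / 2 : ℝ) ^ (N * w i)) ^ χ i
          = 2 ^ (∑ i, χ i) * (1 / 2 : ℝ) ^ (N * ∑ i, w i * χ i) := by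
        simp only [mul_pow, Finset.prod_mul_distrib, Finset.prod_pow_eq_pow_sum]
        congr 1
        rw [Finset.mul_sum, Real.rpow_sum_of_pos (by norm_num)]
        refine Finset.prod_congr rfl fun i _ => ?_
        rw [← Real.rpow_natCast, ← Real.rpow_mul (by norm_num), mul_assoc]
      have h4 : (1 / 2 : ℝ) ^ (N * ∑ i, w i * χ i) ≤ (1 / 2 : ℝ) ^ (N * (m * W)) := by
        apply Real.rpow_le_rpow_of_exponent_ge (by norm_num) (by norm_num)
        exact mul_le_mul_of_nonneg_left h1 (Nat.cast_nonneg N)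
      calc ‖E.coef χ y.1‖ * ∏ i, ‖y.2 i ^ χ i‖ ≤
          |M χ| * (2 ^ (∑ i, χ i) * (1 / 2 : ℝ) ^ (N * (m * W))) := by
            gcongr
            · exact (hM χ y.1 hz).trans (le_abs_self _)
            · rw [h3] at h2
              exact h2.trans (by gcongr)
        _ = _ := by ring
    rw [E.eval y (hQdom N hy)]
    calc ‖∑ χ ∈ E.supp, E.coef χ y.1 * ∏ i, y.2 i ^ χ i‖
        ≤ ∑ χ ∈ E.supp, ‖E.coef χ y.1 * ∏ i, y.2 i ^ χ i‖ := norm_sum_le _ _
      _ ≤ ∑ χ ∈ E.supp, (|M χ| * 2 ^ (∑ i, χ i) * (1 / 2 : ℝ) ^ (N * (m * W))) :=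
          Finset.sum_le_sum hterm
      _ = (∑ χ ∈ E.supp, |M χ| * 2 ^ (∑ i, χ i)) * (1 / 2 : ℝ) ^ (N * (m * W)) := by
          rw [Finset.sum_mul]
      _ ≤ K * (1 / 2 : ℝ) ^ (N * (m * W)) := by
          gcongr
          simp only [K]
          linarith
  -- lower bound of the integrals
  have hlow : ∀ N, ENNReal.ofReal (K ^ (-a) * C') ≤
      ∫⁻ y in QQ g w (ρ / 2) N, ‖B.sec y‖ₑ ^ (-(2 / B.m : ℝ)) := by
    intro N
    have hpt : ∀ y ∈ QQ g w (ρ / 2) N, ENNReal.ofReal ((K * (1 / 2 : ℝ) ^ (N * (m * W))) ^ (-a)) ≤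
        ‖B.sec y‖ₑ ^ (-(2 / B.m : ℝ)) := by
      intro y hy
      rw [← hm, ← ha, ← ENNReal.ofReal_rpow_of_pos (by positivity), ENNReal.rpow_neg,
        ENNReal.rpow_neg]
      apply ENNReal.inv_le_inv.2
      apply ENNReal.rpow_le_rpow _ ha0.le
      rw [← ofReal_norm]
      exact ENNReal.ofReal_le_ofReal (hsec N y hy)
    calc ENNReal.ofReal (K ^ (-a) * C')
        ≤ ENNReal.ofReal ((K * (1 / 2 : ℝ) ^ (N * (m * W))) ^ (-a)) *
          ENNReal.ofReal (C' * (1 / 2 : ℝ) ^ (2 * N * W)) := by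
          rw [← ENNReal.ofReal_mul (by positivity)]
          apply ENNReal.ofReal_le_ofReal
          rw [Real.mul_rpow hK.le (by positivity), ← Real.rpow_mul (by norm_num)]
          have h1 : (1 : ℝ) = (1 / 2 : ℝ) ^ ((N : ℝ) * (m * W) * -a) *
              (1 / 2 : ℝ) ^ (2 * (N : ℝ) * W) := by
            rw [← Real.rpow_add (by norm_num)]
            have : (N : ℝ) * (m * W) * -a + 2 * (N : ℝ) * W = 0 := by
              linear_combination (-(N : ℝ)) * haW
            rw [this, Real.rpow_zero]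
          apply le_of_eq
          calc K ^ (-a) * C' = K ^ (-a) * C' * 1 := by ring
            _ = K ^ (-a) * C' * ((1 / 2 : ℝ) ^ ((N : ℝ) * (m * W) * -a) *
                (1 / 2 : ℝ) ^ (2 * (N : ℝ) * W)) := by rw [← h1]
            _ = _ := by ring
      _ = ENNReal.ofReal ((K * (1 / 2 : ℝ) ^ (N * (m * W))) ^ (-a)) *
          volume (QQ g w (ρ / 2) N) := by rw [hvol' N]
      _ = ∫⁻ _ in QQ g w (ρ / 2) N, ENNReal.ofReal ((K * (1 / 2 : ℝ) ^ (N * (m * W))) ^ (-a)) := by
          rw [setLIntegral_const]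
      _ ≤ _ := setLIntegral_mono' (measurableSet_QQ _ _ _) hpt
  -- the volumes tend to zero
  have htend : Tendsto (fun N => (volume.restrict U) (QQ g w (ρ / 2) N)) atTop (𝓝 0) := by
    have h1 : ∀ N, (volume.restrict U) (QQ g w (ρ / 2) N) =
        ENNReal.ofReal (C' * ((1 / 2 : ℝ) ^ (2 * W)) ^ N) := by
      intro N
      rw [Measure.restrict_eq_self _ (hQU' N), hvol' N, ← Real.rpow_natCast,
        ← Real.rpow_mul (by norm_num)]
      congr 3
      ring
    simp only [h1]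
    rw [← ENNReal.ofReal_zero]
    apply ENNReal.tendsto_ofReal
    have h2 : Tendsto (fun N : ℕ => ((1 / 2 : ℝ) ^ (2 * W)) ^ N) atTop (𝓝 0) := by
      apply tendsto_pow_atTop_nhds_zero_of_lt_one (by positivity)
      exact Real.rpow_lt_one (by norm_num) (by norm_num) (by positivity)
    simpa using h2.const_mul C'
  have hlim := tendsto_setLIntegral_zero hUfin.ne (s := fun N => QQ g w (ρ / 2) N) htend
  have hlim' : Tendsto (fun N => ∫⁻ y in QQ g w (ρ / 2) N, ‖B.sec y‖ₑ ^ (-(2 / B.m : ℝ))) atTop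
      (𝓝 0) := by
    refine hlim.congr fun N => ?_
    rw [Measure.restrict_restrict_of_subset (hQU' N)]
  have hle := ge_of_tendsto' hlim' hlow
  have hpos : 0 < ENNReal.ofReal (K ^ (-a) * C') := ENNReal.ofReal_pos.2 (by positivity)
  exact absurd hle (not_le.2 hpos)

end ToricBundle

end Vale.Agent.P270
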